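import Vale.Agent.P046.Bdl.B6

/-!
The process started at a quasirandom graph: the potential at the starting graph.
-/

set_option autoImplicit false

open scoped Classical
open Finset

namespace Vale.Agent.P046.QS

open Vale.Agent.P046 Vale.Agent.P046.OS Vale.Agent.P046.C

/-- a quasirandom starting graph; here `n = p ^ 1200` -/
structure Start {n : ℕ} (R p : ℝ) (G : SimpleGraph (Fin n)) : Prop where
  edges : (n : ℝ) ^ 2 ≤ R * numEdges G
  small : ∃ x : ℝ, 0 ≤ x ∧ x ^ 2 * n ≤ R * p ∧ Ea.Sm G x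

variable {n : ℕ}

lemma FF_start (d β D μ x : ℝ) (hd : 0 < d) (hβ : 0 < β) (hβ1 : β ≤ 1) (hD : 0 < D) (hμ : 0 < μ)
    (hn : 0 < n) (G : SimpleGraph (Fin n)) (hEpos : (0:ℝ) < numEdges G)
    (hSm : Ea.Sm G x) (hx0 : 0 ≤ x) (hx1 : x ≤ 1 / 1000) :
    FF d β D μ G ≤ (18 + μ) * (x ^ 2 * (n:ℝ) ^ 2) := by
  have hn0 : (0 : ℝ) < n := by exact_mod_cast hn
  have hE2 : 2 * (numEdges G : ℝ) ≤ (n:ℝ) ^ 2 := numEdges_le _
  have hE : 0 < numEdges G := by exact_mod_cast hEpos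
  have hc0 : 0 < cc G := cc_pos _ (by omega) hE
  have hkey : 9 * x ^ 2 * (2 * (numEdges G : ℝ)) ≤ 9 * (x ^ 2 * (n:ℝ) ^ 2) := by
    calc 9 * x ^ 2 * (2 * (numEdges G : ℝ)) ≤ 9 * x ^ 2 * (n:ℝ) ^ 2 :=
          mul_le_mul_of_nonneg_left hE2 (by positivity)
      _ = _ := by ring
  -- M
  have hM : MM d G ≤ 9 * (x ^ 2 * (n:ℝ) ^ 2) := by
    have h1 : MM d G ≤ edgeSum G (fun _ _ => (9 * x ^ 2) * 1) := by
      unfold MM
      apply OS.edgeSum_mono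
      intro u v huv
      have h2 := huber_le_sq d (ww G u v) hd
      have h3 := Ea.ww_small _ x hc0 hx0 hx1 hSm u v (SimpleGraph.ne_of_adj _ huv)
      have h4 : ww G u v ^ 2 ≤ (3 * x) ^ 2 := by
        rw [← sq_abs]
        exact pow_le_pow_left₀ (abs_nonneg _) h3 2
      linarith only [h2, h4]
    rw [OS.edgeSum_mul, OS.edgeSum_one] at h1
    linarith only [hkey, h1]
  have hT : TH D G ≤ 9 * (x ^ 2 * (n:ℝ) ^ 2) := by
    have h1 : TH D G ≤ edgeSum G (fun _ _ => (9 * x ^ 2) * 1) := by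
      unfold TH
      apply OS.edgeSum_mono
      intro u v huv
      have hz := hSm.adj u v huv
      have ez : zz G u v = rr G u v - 1 := rfl
      rw [ez] at hz
      have hr := abs_le.mp hz
      have h2 := Lam_le D (hh (rr G u v)) hD (hh_nonneg _ (by linarith only [hx1, hr]))
      have h3 := Ea.hh_le_two (rr G u v) (by linarith)
      have h4 : (rr G u v - 1) ^ 2 ≤ x ^ 2 := by
        rw [← sq_abs]
        exact pow_le_pow_left₀ (abs_nonneg _) hz 2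
      unfold theta
      linarith only [h2, h3, h4, sq_nonneg x]
    rw [OS.edgeSum_mul, OS.edgeSum_one] at h1
    linarith only [hkey, h1]
  have hR : RF G ≤ x ^ 2 * (n:ℝ) ^ 2 := by
    have h1 := rho_of_good G (by omega) hE x hSm
    have h2 : (rho G - 1) ^ 2 ≤ x ^ 2 := by
      rw [← sq_abs]
      exact pow_le_pow_left₀ (abs_nonneg _) h1 2
    unfold RF
    have h3 := mul_le_mul_of_nonneg_left h2 hEpos.le
    have h4 : 0 ≤ x ^ 2 * (numEdges G : ℝ) := by positivity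
    linarith only [hkey, h3, h4]
  have hT0 : 0 ≤ TH D G := Ea.TH_nonneg' D hD _
  unfold FF
  have a1 : β * TH D G ≤ 1 * TH D G := mul_le_mul_of_nonneg_right hβ1 hT0
  have a2 : μ * RF G ≤ μ * (x ^ 2 * (n:ℝ) ^ 2) := mul_le_mul_of_nonneg_left hR hμ.le
  linarith only [hM, a1, a2, hT]

/-- eighth powers -/
lemma pow8 (G : SimpleGraph (Fin n)) (x : ℝ) (hSm : Ea.Sm G x) (u v : Fin n) (h : u ≠ v) :
    zz G u v ^ 8 ≤ x ^ 8 := by
  rw [← Even.pow_abs (by decide : Even 8) (zz G u v)]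
  exact pow_le_pow_left₀ (abs_nonneg _) (hSm u v h) 8

lemma Phi8_start (G : SimpleGraph (Fin n)) (x : ℝ) (hx0 : 0 ≤ x) (hSm : Ea.Sm G x) :
    Phi8 G ≤ x ^ 8 * (n : ℝ) ^ 2 := by
  have key : Phi8 G ≤ ∑ _u : Fin n, ∑ _v : Fin n, x ^ 8 := by
    unfold Phi8 edgeSum
    refine Finset.sum_le_sum fun u _ => Finset.sum_le_sum fun v _ => ?_
    split_ifs with h
    · exact pow8 G x hSm u v (G.ne_of_adj h)
    · positivity
  refine key.trans (le_of_eq ?_)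
  simp only [Finset.sum_const, Finset.card_univ, Fintype.card_fin, nsmul_eq_mul]
  ring

lemma Z8_start (G : SimpleGraph (Fin n)) (x : ℝ) (hx0 : 0 ≤ x) (hSm : Ea.Sm G x) :
    Z8 G ≤ x ^ 8 * (n : ℝ) ^ 2 := by
  have key : Z8 G ≤ ∑ _u : Fin n, ∑ _v : Fin n, x ^ 8 := by
    unfold Z8
    refine Finset.sum_le_sum fun u _ => Finset.sum_le_sum fun v _ => ?_
    by_cases h : u ≠ v
    · rw [if_pos h]
      exact pow8 G x hSm u v h
    · rw [if_neg h]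
      positivity
  refine key.trans (le_of_eq ?_)
  simp only [Finset.sum_const, Finset.card_univ, Fintype.card_fin, nsmul_eq_mul]
  ring

/-- the eighth power of the deviation -/
lemma x8_le (x R p : ℝ) (hx0 : 0 ≤ x) (hp : 1 ≤ p) (hR : 0 ≤ R) (h : x ^ 2 * p ^ 1200 ≤ R * p) :
    x ^ 8 * p ^ 4796 ≤ R ^ 4 := by
  have hp0 : 0 < p := by linarith
  have h1 : x ^ 2 * p ^ 1199 ≤ R := by
    have e1 : x ^ 2 * p ^ 1200 = (x ^ 2 * p ^ 1199) * p := by ring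
    rw [e1] at h
    exact le_of_mul_le_mul_right h hp0
  have h2 := pow_le_pow_left₀ (by positivity) h1 4
  calc x ^ 8 * p ^ 4796 = (x ^ 2 * p ^ 1199) ^ 4 := by ring
    _ ≤ R ^ 4 := h2

/-- the deviation is small -/
lemma x_small (x R p : ℝ) (hx0 : 0 ≤ x) (hp : 2 ≤ p) (hR : 0 ≤ R) (hRp : R ≤ p)
    (h : x ^ 2 * p ^ 1200 ≤ R * p) : x ≤ 1 / p := by
  have hp0 : 0 < p := by linarith
  have hp1 : 1 ≤ p := by linarith
  rw [le_div_iff₀ hp0]
  have h1 : (x * p) ^ 2 ≤ 1 ^ 2 := by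
    have h2 : x ^ 2 * p ^ 1200 ≤ p ^ 2 := by
      refine h.trans ?_
      rw [sq]
      exact mul_le_mul_of_nonneg_right hRp hp0.le
    have h3 : (x * p) ^ 2 * p ^ 2 ≤ 1 * p ^ 2 := by
      calc (x * p) ^ 2 * p ^ 2 = x ^ 2 * p ^ 4 := by ring
        _ ≤ x ^ 2 * p ^ 1200 := by
            apply mul_le_mul_of_nonneg_left _ (by positivity)
            exact pow_le_pow_right₀ hp1 (by norm_num)
        _ ≤ p ^ 2 := h2
        _ = 1 * p ^ 2 := (one_mul _).symm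
    have h4 := le_of_mul_le_mul_right h3 (by positivity)
    rw [one_pow]
    exact h4
  exact le_of_sq_le_sq' h1
where
  le_of_sq_le_sq' {a : ℝ} (h : a ^ 2 ≤ 1 ^ 2) : a ≤ 1 := by
    nlinarith [sq_nonneg (a - 1)]

/-- size of the potential at a quasirandom graph -/
lemma Phi_start (F : SimpleGraph (Fin n) → ℝ) (A B C D s0 Es M0 p R x : ℝ)
    (G : SimpleGraph (Fin n))
    (hn : 2 ≤ n) (hA : 0 < A) (hB : 0 < B) (hC : 0 ≤ C)
    (hs0 : 0 < s0) (hs1 : s0 ≤ 1) (hp : 2 ≤ p) (hN : (n : ℝ) = p ^ 1200) (hEs : 0 < Es)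
    (h1 : (n : ℝ) ^ 2 / p ^ 15 / Es ≤ p ^ 600) (hs : 2 * 10 ^ 13 / s0 ^ 8 ≤ p)
    (hR : 1 ≤ R) (hRp : R ≤ p) (hF0 : 0 ≤ F G) (hFG : F G ≤ C * R * (p * n))
    (hedge : (n : ℝ) ^ 2 ≤ R * numEdges G) (hx0 : 0 ≤ x) (hx : x ^ 2 * n ≤ R * p)
    (hSm : Ea.Sm G x) :
    Phi F A B D Es M0 s0 (p ^ 15) G ≤ M0 + (A * C * R + A * B * R ^ 8 + 2) * (n : ℝ) ^ 3 / p := by
  have hn' : (2 : ℝ) ≤ n := by exact_mod_cast hn
  have hp0 : 0 < p := by linarith only [hp]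
  have hp1 : 1 ≤ p := by linarith only [hp]
  have hR0 : 0 < R := by linarith only [hR]
  have hn0 : (0:ℝ) < n := by linarith only [hn']
  obtain ⟨e, he⟩ : ∃ e, e = (numEdges G : ℝ) := ⟨_, rfl⟩
  rw [← he] at hedge
  have he0 : 0 < e := by
    by_contra hneg
    push Not at hneg
    have h2 : R * e ≤ 0 := mul_nonpos_of_nonneg_of_nonpos hR0.le hneg
    have h3 : 0 < (n:ℝ) ^ 2 := by positivity
    linarith only [h2, h3, hedge]
  have he2 : 2 * e ≤ (n:ℝ) ^ 2 := by rw [he]; exact numEdges_le G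
  have hE0 : 0 < (n:ℝ) ^ 2 / p ^ 15 := by positivity
  have hEE0 : (n:ℝ) ^ 2 / p ^ 15 ≤ e := by
    rw [div_le_iff₀ (by positivity)]
    have h2 : R ≤ p ^ 15 := hRp.trans (le_self_pow₀ hp1 (by norm_num))
    have h3 := mul_le_mul_of_nonneg_right h2 he0.le
    linarith only [hedge, h3]
  unfold Phi
  rw [if_neg (by rw [← he]; exact not_lt.mpr hEE0)]
  unfold PhiE
  rw [← he]
  have ha := a1E_bound A Es ((n:ℝ) ^ 2) p e hA hp1 hEs (by positivity) h1 he0.le (by linarith only [he2, he0])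
  have hb := bE_bound ((n:ℝ) ^ 4 * (p ^ 15) ^ 16 / s0 ^ 8) ((n:ℝ) ^ 2 / p ^ 15) e (p ^ 15)
    (by positivity) hE0 he0.le (by
      have : p ^ 15 * ((n:ℝ) ^ 2 / p ^ 15) = (n:ℝ) ^ 2 := by field_simp
      rw [this]; linarith only [he2, he0])
  obtain ⟨a, hadef⟩ : ∃ a, a = a1E (a1L A Es ((n:ℝ) ^ 2 / p ^ 15)) ((n:ℝ) ^ 2 / p ^ 15) e := ⟨_, rfl⟩
  obtain ⟨b, hbdef⟩ : ∃ b, b = bE ((n:ℝ) ^ 4 * (p ^ 15) ^ 16 / s0 ^ 8) ((n:ℝ) ^ 2 / p ^ 15) e :=
    ⟨_, rfl⟩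
  rw [← hadef] at ha
  rw [← hbdef] at hb
  rw [← hadef, ← hbdef]
  have ha0 : 0 ≤ a := by rw [hadef]; unfold a1E a1L; positivity
  have hb0 : 0 ≤ b := by rw [hbdef]; unfold bE; positivity
  have hcc : 4 * (n:ℝ) / R ^ 2 ≤ cc G := by
    unfold cc
    rw [← he, div_le_div_iff₀ (by positivity) (by positivity)]
    have := pow_le_pow_left₀ (by positivity) hedge 2
    linarith only [this]
  have hcc4 : (4 * (n:ℝ) / R ^ 2) ^ 4 ≤ cc G ^ 4 :=
    pow_le_pow_left₀ (by positivity) hcc 4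
  have hcc0 : 0 < cc G := lt_of_lt_of_le (by positivity) hcc
  have t1 : a * F G ≤ A * C * R * (n:ℝ) ^ 3 / p := by
    calc a * F G ≤ a * (C * R * (p * n)) := mul_le_mul_of_nonneg_left hFG ha0
      _ ≤ (A * (n:ℝ) ^ 2 / p ^ 2) * (C * R * (p * n)) :=
          mul_le_mul_of_nonneg_right ha (by positivity)
      _ = A * C * R * (n:ℝ) ^ 3 / p := by field_simp
  have hpp : 1 / p ^ 2 ≤ 1 / p := by
    apply one_div_le_one_div_of_le hp0
    exact le_self_pow₀ hp1 (by norm_num)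
  have hpn3 : (n:ℝ) ^ 3 / p ^ 2 ≤ (n:ℝ) ^ 3 / p := by
    have := mul_le_mul_of_nonneg_left hpp (by positivity : 0 ≤ (n:ℝ) ^ 3)
    calc (n:ℝ) ^ 3 / p ^ 2 = (n:ℝ) ^ 3 * (1 / p ^ 2) := by ring
      _ ≤ (n:ℝ) ^ 3 * (1 / p) := this
      _ = _ := by ring
  have t2 : B * a / cc G ^ 4 * wheels G ≤ A * B * R ^ 8 * (n:ℝ) ^ 3 / p := by
    have hw := wheels_top_le n G
    have hw0 := wheels_nonneg G
    calc B * a / cc G ^ 4 * wheels G
        ≤ B * a / (4 * (n:ℝ) / R ^ 2) ^ 4 * wheels G := by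
          apply mul_le_mul_of_nonneg_right _ hw0
          exact div_le_div_of_nonneg_left (by positivity) (by positivity) hcc4
      _ ≤ B * a / (4 * (n:ℝ) / R ^ 2) ^ 4 * (n:ℝ) ^ 5 :=
          mul_le_mul_of_nonneg_left hw (by positivity)
      _ = B * (n:ℝ) * R ^ 8 / 256 * a := by field_simp; norm_num
      _ ≤ B * (n:ℝ) * R ^ 8 / 256 * (A * (n:ℝ) ^ 2 / p ^ 2) :=
          mul_le_mul_of_nonneg_left ha (by positivity)
      _ = A * B * R ^ 8 / 256 * ((n:ℝ) ^ 3 / p ^ 2) := by ring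
      _ ≤ A * B * R ^ 8 / 256 * ((n:ℝ) ^ 3 / p) := mul_le_mul_of_nonneg_left hpn3 (by positivity)
      _ ≤ A * B * R ^ 8 * ((n:ℝ) ^ 3 / p) := by
          apply mul_le_mul_of_nonneg_right _ (by positivity)
          have : 0 ≤ A * B * R ^ 8 := by positivity
          linarith only [this]
      _ = _ := by ring
  have hP8 := Phi8_start G x hx0 hSm
  have hZ8 := Z8_start G x hx0 hSm
  have hx8 : x ^ 8 * p ^ 4796 ≤ p ^ 4 := by
    refine (x8_le x R p hx0 hp1 hR0.le (by rw [← hN]; exact hx)).trans ?_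
    exact pow_le_pow_left₀ hR0.le hRp 4
  have hx8' : x ^ 8 ≤ 1 / p ^ 4792 := by
    rw [le_div_iff₀ (by positivity)]
    have e1 : x ^ 8 * p ^ 4796 = (x ^ 8 * p ^ 4792) * p ^ 4 := by ring
    rw [e1] at hx8
    have h2 : (x ^ 8 * p ^ 4792) * p ^ 4 ≤ 1 * p ^ 4 := by linarith only [hx8]
    exact le_of_mul_le_mul_right h2 (by positivity)
  have hxn : x ^ 8 * (n:ℝ) ^ 2 ≤ (n:ℝ) ^ 2 / p ^ 4792 := by
    have := mul_le_mul_of_nonneg_right hx8' (by positivity : 0 ≤ (n:ℝ) ^ 2)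
    calc x ^ 8 * (n:ℝ) ^ 2 ≤ 1 / p ^ 4792 * (n:ℝ) ^ 2 := this
      _ = _ := by ring
  have hbn : b * ((n:ℝ) ^ 2 / p ^ 4792) * (5 * p ^ 30) ≤ (n:ℝ) ^ 3 / p := by
    calc b * ((n:ℝ) ^ 2 / p ^ 4792) * (5 * p ^ 30)
        ≤ ((n:ℝ) ^ 4 * (p ^ 15) ^ 16 / s0 ^ 8 * (p ^ 15) ^ 40) * ((n:ℝ) ^ 2 / p ^ 4792) *
            (5 * p ^ 30) := by
          apply mul_le_mul_of_nonneg_right _ (by positivity)
          exact mul_le_mul_of_nonneg_right hb (by positivity)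
      _ = (5 / s0 ^ 8) * (p ^ 870 * (n:ℝ) ^ 6 / p ^ 4792) := by field_simp
      _ ≤ p * (p ^ 870 * (n:ℝ) ^ 6 / p ^ 4792) := by
          apply mul_le_mul_of_nonneg_right _ (by positivity)
          refine le_trans ?_ hs
          apply div_le_div_of_nonneg_right _ (by positivity)
          norm_num
      _ ≤ (n:ℝ) ^ 3 / p := by
          rw [← mul_div_assoc, div_le_div_iff₀ (by positivity) (by positivity), hN]
          have e1 : p * (p ^ 870 * (p ^ 1200) ^ 6) * p = p ^ 8072 := by ring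
          have e2 : (p ^ 1200) ^ 3 * p ^ 4792 = p ^ 8392 := by ring
          rw [e1, e2]
          exact pow_le_pow_right₀ hp1 (by norm_num)
  have t3 : 4 * (p ^ 15) ^ 2 * b * Phi8 G + b * Z8 G ≤ (n:ℝ) ^ 3 / p := by
    have q1 : 4 * (p ^ 15) ^ 2 * b * Phi8 G ≤
        4 * (p ^ 15) ^ 2 * b * ((n:ℝ) ^ 2 / p ^ 4792) :=
      mul_le_mul_of_nonneg_left (hP8.trans hxn) (by positivity)
    have q2 : b * Z8 G ≤ b * ((n:ℝ) ^ 2 / p ^ 4792) :=
      mul_le_mul_of_nonneg_left (hZ8.trans hxn) hb0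
    have q3 : (1:ℝ) ≤ p ^ 30 := one_le_pow₀ hp1
    have q4 : b * ((n:ℝ) ^ 2 / p ^ 4792) * 1 ≤ b * ((n:ℝ) ^ 2 / p ^ 4792) * p ^ 30 :=
      mul_le_mul_of_nonneg_left q3 (by positivity)
    have q5 : 4 * (p ^ 15) ^ 2 * b * ((n:ℝ) ^ 2 / p ^ 4792) =
        b * ((n:ℝ) ^ 2 / p ^ 4792) * (4 * p ^ 30) := by
      ring
    linarith only [hbn, q1, q2, q4, q5]
  have t4 : (n:ℝ) / (p ^ 15) ^ 8 * e ≤ (n:ℝ) ^ 3 / p := by
    have q1 : (n:ℝ) / (p ^ 15) ^ 8 ≤ (n:ℝ) / p := by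
      apply div_le_div_of_nonneg_left hn0.le hp0
      rw [← pow_mul]
      exact le_self_pow₀ hp1 (by norm_num)
    calc (n:ℝ) / (p ^ 15) ^ 8 * e ≤ (n:ℝ) / p * (n:ℝ) ^ 2 :=
          mul_le_mul q1 (by linarith only [he2, he0]) he0.le (by positivity)
      _ = _ := by ring
  have e9 : (A * C * R + A * B * R ^ 8 + 2) * (n : ℝ) ^ 3 / p = A * C * R * (n:ℝ) ^ 3 / p +
      A * B * R ^ 8 * (n:ℝ) ^ 3 / p + (n:ℝ) ^ 3 / p + (n:ℝ) ^ 3 / p := by ring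
  rw [e9]
  linarith only [t1, t2, t3, t4]

end Vale.Agent.P046.QS
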