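import Vale.Agent.P046.H621.Q1

/-!
The process started at a quasirandom graph: second moment and level event.
-/

set_option autoImplicit false

open scoped Classical
open Finset

namespace Vale.Agent.P046.QS

open Vale.Agent.P046 Vale.Agent.P046.OS Vale.Agent.P046.C Vale.Agent.P046.Lv

lemma FFc_start (R p : ℝ) (hR : 1 ≤ R) (hRp : R ≤ p) (hp : 1000 ≤ p) (n : ℕ) (hn : 2 ≤ n)
    (hN : (n : ℝ) = p ^ 1200) (G : SimpleGraph (Fin n)) (hst : Start R p G) :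
    FFc G ≤ 1e60 * R * (p * n) := by
  obtain ⟨x, hx0, hx, hSm⟩ := hst.small
  have hp0 : 0 < p := by linarith only [hp]
  have hR0 : 0 < R := by linarith only [hR]
  have hn0 : (0:ℝ) < n := by rw [hN]; positivity
  have hx1 : x ≤ 1 / 1000 := by
    have h1 := x_small x R p hx0 (by linarith only [hp]) hR0.le hRp (by rw [← hN]; exact hx)
    refine h1.trans ?_
    exact one_div_le_one_div_of_le (by norm_num) hp
  have hE : (0:ℝ) < numEdges G := by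
    by_contra hneg
    push Not at hneg
    have h2 : R * (numEdges G : ℝ) ≤ 0 := mul_nonpos_of_nonneg_of_nonpos hR0.le hneg
    have h3 : 0 < (n:ℝ) ^ 2 := by positivity
    linarith only [h2, h3, hst.edges]
  have h1 := FF_start 1e-23 1e-9 1e-46 1e7 x (by norm_num) (by norm_num) (by norm_num)
    (by norm_num) (by norm_num) (by omega) G hE hSm hx0 hx1
  unfold FFc
  refine h1.trans ?_
  have h2 : x ^ 2 * (n:ℝ) ^ 2 ≤ R * (p * n) := by
    have := mul_le_mul_of_nonneg_right hx hn0.le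
    calc x ^ 2 * (n:ℝ) ^ 2 = x ^ 2 * n * n := by ring
      _ ≤ R * p * n := this
      _ = _ := by ring
  have h3 : 0 ≤ R * (p * (n:ℝ)) := by positivity
  calc (18 + (1e7:ℝ)) * (x ^ 2 * (n:ℝ) ^ 2) ≤ (18 + 1e7) * (R * (p * n)) :=
        mul_le_mul_of_nonneg_left h2 (by norm_num)
    _ ≤ 1e60 * (R * (p * n)) := mul_le_mul_of_nonneg_right (by norm_num) h3
    _ = _ := by ring

/-- second moment version of the induction -/
lemma sq_start (n : ℕ) (R : ℝ) (G0 : SimpleGraph (Fin n)) (F : SimpleGraph (Fin n) → ℝ) (A B C K0 κ κL s0 η p K1 : ℝ)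
    (hF : FHyp F C K0 κ κL s0 η) (hη : η ≤ 1 / 10000) (hA : 0 < A) (hAκ : 1 ≤ A * κ)
    (hB : 0 < B) (hC : 0 ≤ C) (hκL : 0 ≤ κL) (hK0 : 10000 ≤ K0)
    (hκ : 65536 * B * κL ≤ (1 / 1000) * K0) (hCB : 4 * C ≤ B)
    (hs0 : 0 < s0) (hs1 : s0 ≤ 1 / 10000) (hK1 : 1 ≤ K1) (hK1' : K0 ≤ 4 * K1 ^ 2)
    (hn : 2 ≤ n) (hp : 2 ≤ p) (hN : (n : ℝ) = p ^ 1200)
    (hAC : A * C ≤ p) (hs : 2 * 10 ^ 13 / s0 ^ 8 ≤ p) (hpK : 2 * K1 + 3 ≤ p)
    (hR : 1 ≤ R) (hRp : R ≤ p) (hst : Start R p G0) (hFG : F G0 ≤ C * R * (p * n))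
    (k : ℕ) (hk : numEdges G0 ≤ k) :
    V (fun H => (numEdges H : ℝ) ^ 2) k G0 ≤
      (2 * A * C + K1 ^ 2 + (A * C * R + A * B * R ^ 8 + 2)) * (n : ℝ) ^ 3 := by
  have hp0 : 0 < p := by linarith only [hK1, hpK]
  have hp1 : 1 ≤ p := by linarith only [hK1, hpK]
  obtain ⟨Es, hEs⟩ : ∃ Es, Es = K1 * p ^ 1800 := ⟨_, rfl⟩
  have hEs1 : p ^ 1800 ≤ Es := by
    have : 1 * p ^ 1800 ≤ K1 * p ^ 1800 := mul_le_mul_of_nonneg_right hK1 (by positivity)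
    linarith only [hEs, this]
  have hEs5 : 100000 ≤ Es := by
    calc (100000:ℝ) ≤ 2 ^ 17 := by norm_num
      _ ≤ p ^ 17 := pow_le_pow_left₀ (by norm_num) hp 17
      _ ≤ p ^ 1800 := pow_le_pow_right₀ hp1 (by norm_num)
      _ ≤ Es := hEs1
  have hEs0 : 0 < Es := by linarith only [hs0, hs1, hEs5]
  have hE2 : Es ≤ 2 * K1 * p ^ 1800 := by
    have : 0 ≤ K1 * p ^ 1800 := by positivity
    rw [hEs]; linarith only [hEs, hEs5]
  have hn0 : (0:ℝ) < n := by rw [hN]; positivity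
  have hEsn : Es ^ 2 = K1 ^ 2 * (n:ℝ) ^ 3 := by rw [hEs, hN]; ring
  obtain ⟨M0, hM0⟩ : ∃ M0, M0 = A * C * ((n : ℝ) ^ 3) ^ 2 / (Es * (Es - 3)) + Es ^ 2 := ⟨_, rfl⟩
  have hMle : A * C * ((n : ℝ) ^ 3) ^ 2 / Es ^ 2 ≤ M0 := by
    rw [hM0]
    have h1 : A * C * ((n : ℝ) ^ 3) ^ 2 / Es ^ 2 ≤ A * C * ((n : ℝ) ^ 3) ^ 2 / (Es * (Es - 3)) := by
      apply div_le_div_of_nonneg_left (by positivity)
      · have : 0 < Es - 3 := by linarith only [hs0, hs1, hEs5]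
        positivity
      · linarith only [hs0, hs1, hEs5]
    have : 0 ≤ Es ^ 2 := by positivity
    linarith only [h1, this]
  obtain ⟨hNH, hP⟩ := NHyp_of n A B C K0 κ κL s0 η Es M0 p K1 hη hA hAκ hB hC hκL hK0 hκ hCB hs0 hs1
    hK1 hK1' hp hN (by rw [hEs]) hE2 hMle hAC hs hpK
  have hsup := super_sq (Phi F A B (A * C) Es M0 s0 (p ^ 15)) Es hEs0 (by
    intro G h1 h2
    have h3 : (numEdges G : ℝ) < (n:ℝ) ^ 2 / p ^ 15 := by linarith only [h2, hNH.hEq]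
    have h4 : Phi F A B (A * C) Es M0 s0 (p ^ 15) G = PhiL F A B (A * C) Es M0 G := by
      unfold Phi; rw [if_pos h3]
    rw [h4]
    have h5 : 0 < (numEdges G : ℝ) := by linarith only [hs0, hs1, hEs5, h1]
    have h6 := a1L_nonneg A Es (numEdges G) hA.le hEs0 h5.le
    have h7 : 0 ≤ a1L A Es (numEdges G) * F G := mul_nonneg h6 (hF.nonneg G)
    have h8 : 0 ≤ B * a1L A Es (numEdges G) / cc G ^ 4 * wheels G := by
      have := wheels_nonneg G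
      have : 0 ≤ cc G := by unfold cc; positivity
      positivity
    have h9 : Es ^ 2 ≤ a3L (A * C) M0 ((n:ℝ) ^ 3) Es (numEdges G) := by
      unfold a3L
      rw [hM0]
      have : A * C * ((n : ℝ) ^ 3) ^ 2 / (Es * (numEdges G : ℝ)) ≤
          A * C * ((n : ℝ) ^ 3) ^ 2 / (Es * (Es - 3)) := by
        apply div_le_div_of_nonneg_left (by positivity)
        · have : 0 < Es - 3 := by linarith only [hs0, hs1, hEs5]
          positivity
        · exact mul_le_mul_of_nonneg_left h1 hEs0.le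
      linarith only [this]
    unfold PhiL
    linarith only [h7, h8, h9]) (fun G hG => Phi_step F A B C (A * C) K0 κ κL s0 η Es M0 (p ^ 15) hF hNH G hG)
    k G0 hk
  have hMbound : M0 ≤ (2 * A * C + K1 ^ 2) * (n:ℝ) ^ 3 := by
    rw [hM0, hEsn]
    have h1 : A * C * ((n : ℝ) ^ 3) ^ 2 / (Es * (Es - 3)) ≤ 2 * A * C * (n:ℝ) ^ 3 := by
      have h2 : 0 < Es * (Es - 3) := by
        have : 0 < Es - 3 := by linarith only [hs0, hs1, hEs5]
        positivity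
      rw [div_le_iff₀ h2]
      have h3 : (n:ℝ) ^ 3 ≤ 2 * (Es * (Es - 3)) := by
        have h4 : 1 * (n:ℝ) ^ 3 ≤ K1 ^ 2 * (n:ℝ) ^ 3 :=
          mul_le_mul_of_nonneg_right (one_le_pow₀ hK1) (by positivity)
        nlinarith only [hEs5, hEsn, h4]
      calc A * C * ((n : ℝ) ^ 3) ^ 2 = (A * C * (n:ℝ) ^ 3) * (n:ℝ) ^ 3 := by ring
        _ ≤ (A * C * (n:ℝ) ^ 3) * (2 * (Es * (Es - 3))) :=
            mul_le_mul_of_nonneg_left h3 (by positivity)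
        _ = _ := by ring
    linarith only [h1]
  have hnp : (n : ℝ) ^ 3 / p ≤ (n:ℝ) ^ 3 := by
    apply div_le_self (by positivity)
    exact hp1
  have hR0 : 0 < R := by linarith only [hR]
  obtain ⟨x, hx0, hx, hSm⟩ := hst.small
  rcases lt_or_ge (numEdges G0 : ℝ) Es with h | h
  · refine (hsup.1 h).trans ?_
    rw [hEsn]
    have : 0 ≤ (2 * A * C + (A * C * R + A * B * R ^ 8 + 2)) * (n:ℝ) ^ 3 := by positivity
    linarith only [this]
  · refine (hsup.2 h).trans ?_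
    have htop := Phi_start F A B C (A * C) s0 Es M0 p R x G0 hn hA hB hC hs0
      (by linarith only [hs1]) hp hN hEs0 hP hs hR hRp (hF.nonneg G0) hFG hst.edges hx0 hx hSm
    refine htop.trans ?_
    have h1 : (A * C * R + A * B * R ^ 8 + 2) * (n : ℝ) ^ 3 / p ≤
        (A * C * R + A * B * R ^ 8 + 2) * (n : ℝ) ^ 3 := by
      rw [mul_div_assoc]
      exact mul_le_mul_of_nonneg_left hnp (by positivity)
    linarith only [hMbound, h1]


/-- level version of the induction -/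
lemma level_large_start (n : ℕ) (R : ℝ) (G0 : SimpleGraph (Fin n)) (F : SimpleGraph (Fin n) → ℝ) (A B C K0 κ κL s0 η p K1 Es L : ℝ)
    (hF : FHyp F C K0 κ κL s0 η) (hη : η ≤ 1 / 10000) (hA : 0 < A) (hAκ : 1 ≤ A * κ)
    (hB : 0 < B) (hC : 0 < C) (hκL : 0 ≤ κL) (hK0 : 10000 ≤ K0)
    (hκ : 65536 * B * κL ≤ (1 / 1000) * K0) (hCB : 4 * C ≤ B)
    (hs0 : 0 < s0) (hs1 : s0 ≤ 1 / 10000) (hK1 : 1 ≤ K1) (hK1' : K0 ≤ 4 * K1 ^ 2)
    (hL : 0 < L) (hK2 : A * (L * C) ≤ 16 * K1 ^ 4)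
    (hn : 2 ≤ n) (hp : 2 ≤ p) (hN : (n : ℝ) = p ^ 1200)
    (hAC : A * C ≤ p) (hs : 2 * 10 ^ 13 / s0 ^ 8 ≤ p) (hpK : 2 * K1 + 3 ≤ p)
    (hpR : (A * C * R + A * B * R ^ 8 + 2) * K1 ^ 2 * 4 ≤ A * C * p)
    (hR : 1 ≤ R) (hRp : R ≤ p) (hst : Start R p G0) (hFG : F G0 ≤ C * R * (p * n))
    (e1 k1 : ℕ) (hEs : Es = e1) (hE1 : K1 * p ^ 1800 ≤ Es) (hE2 : Es ≤ 2 * K1 * p ^ 1800)
    (hk : numEdges G0 = e1 + 3 * k1) :
    V (levBad F e1 (L * C * Es / (4 * Es ^ 2 / (n:ℝ) ^ 3) ^ 2)) k1 G0 ≤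
      32 / L := by
  have hp0 : 0 < p := by linarith
  have hp1 : 1 ≤ p := by linarith
  have hEs1 : p ^ 1800 ≤ Es := by
    have : 1 * p ^ 1800 ≤ K1 * p ^ 1800 := mul_le_mul_of_nonneg_right hK1 (by positivity)
    linarith
  have hEs5 : 100000 ≤ Es := by
    calc (100000:ℝ) ≤ 2 ^ 17 := by norm_num
      _ ≤ p ^ 17 := pow_le_pow_left₀ (by norm_num) hp 17
      _ ≤ p ^ 1800 := pow_le_pow_right₀ hp1 (by norm_num)
      _ ≤ Es := hEs1
  have hEs0 : 0 < Es := by linarith only [hs0, hs1, hEs5]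
  have hn0 : (0:ℝ) < n := by rw [hN]; positivity
  have hEsn : K1 ^ 2 * (n:ℝ) ^ 3 ≤ Es ^ 2 := by
    have h1 := pow_le_pow_left₀ (by positivity) hE1 2
    calc K1 ^ 2 * (n:ℝ) ^ 3 = (K1 * p ^ 1800) ^ 2 := by rw [hN]; ring
      _ ≤ _ := h1
  have hEsn2 : Es ^ 2 ≤ 4 * K1 ^ 2 * (n:ℝ) ^ 3 := by
    have h1 := pow_le_pow_left₀ hEs0.le hE2 2
    calc Es ^ 2 ≤ (2 * K1 * p ^ 1800) ^ 2 := h1
      _ = 4 * K1 ^ 2 * (n:ℝ) ^ 3 := by rw [hN]; ring
  obtain ⟨M0, hM0⟩ : ∃ M0, M0 = A * C * ((n : ℝ) ^ 3) ^ 2 / Es ^ 2 := ⟨_, rfl⟩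
  have hM0pos : 0 < M0 := by rw [hM0]; positivity
  obtain ⟨hNH, hP⟩ := NHyp_of n A B C K0 κ κL s0 η Es M0 p K1 hη hA hAκ hB hC.le hκL hK0 hκ hCB hs0 hs1
    hK1 hK1' hp hN hE1 hE2 hM0.ge hAC hs hpK
  obtain ⟨lam, hlam⟩ : ∃ lam, lam = L * C * Es / (4 * Es ^ 2 / (n:ℝ) ^ 3) ^ 2 := ⟨_, rfl⟩
  rw [← hlam]
  have hlam0 : 0 < lam := by rw [hlam]; positivity
  have hAlam : A * lam * Es = L / 16 * M0 := by
    rw [hlam, hM0]; field_simp; ring
  have hAlam2 : A * lam ≤ Es := by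
    have h1 : A * lam * Es ≤ Es * Es := by
      rw [hAlam, hM0, ← mul_div_assoc, div_le_iff₀ (by positivity)]
      have h2 : L / 16 * (A * C * ((n:ℝ) ^ 3) ^ 2) ≤ (K1 ^ 2 * (n:ℝ) ^ 3) ^ 2 := by
        have h3 : L / 16 * (A * C) ≤ K1 ^ 4 := by linarith only [hK2]
        calc L / 16 * (A * C * ((n:ℝ) ^ 3) ^ 2) = L / 16 * (A * C) * ((n:ℝ) ^ 3) ^ 2 := by ring
          _ ≤ K1 ^ 4 * ((n:ℝ) ^ 3) ^ 2 := mul_le_mul_of_nonneg_right h3 (by positivity)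
          _ = _ := by ring
      have h4 : (K1 ^ 2 * (n:ℝ) ^ 3) ^ 2 ≤ (Es ^ 2) ^ 2 := pow_le_pow_left₀ (by positivity) hEsn 2
      calc L / 16 * (A * C * ((n : ℝ) ^ 3) ^ 2) ≤ (Es ^ 2) ^ 2 := h2.trans h4
        _ = Es * Es * Es ^ 2 := by ring
    exact le_of_mul_le_mul_right h1 hEs0
  have hden : 0 < A * lam * Es := by positivity
  have hsup := super_level (fun G => Phi F A B (A * C) Es M0 s0 (p ^ 15) G / (A * lam * Es))
    (levBad F e1 lam) e1 (levBad_le_one F e1 lam) (by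
      intro G hG
      have h3 : (numEdges G : ℝ) = Es := by rw [hG, hEs]
      have h4 : Phi F A B (A * C) Es M0 s0 (p ^ 15) G = PhiL F A B (A * C) Es M0 G := by
        unfold Phi; rw [if_pos (by rw [h3]; linarith [hNH.hEq])]
      show levBad F e1 lam G ≤ Phi F A B (A * C) Es M0 s0 (p ^ 15) G / (A * lam * Es)
      rw [h4]
      have h5 : 0 ≤ B * a1L A Es (numEdges G) / cc G ^ 4 * wheels G := by
        have := wheels_nonneg G
        have : 0 ≤ cc G := by unfold cc; positivity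
        have := a1L_nonneg A Es (numEdges G) hA.le hEs0 (by positivity)
        positivity
      have h6 : 0 ≤ a3L (A * C) M0 ((n:ℝ) ^ 3) Es (numEdges G) :=
        a3L_nonneg (A * C) M0 _ Es _ (by positivity) hEs0 h3.ge hM0.ge
      have h7 : a1L A Es (numEdges G) = A * Es := by
        unfold a1L
        rw [h3, div_self hEs0.ne', Real.one_rpow, mul_one]
      unfold levBad
      split_ifs with h8
      · unfold PhiL
        have := hF.nonneg G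
        rw [h7]
        rw [h7] at h5
        have h9 : 0 ≤ A * Es * F G := by (clear * - hA hEs5 this; positivity)
        apply div_nonneg _ hden.le
        linarith only [h5, h6, h9]
      · have h9 : lam < F G := by
          by_contra hneg
          push Not at hneg
          exact h8 ⟨hG, hneg⟩
        rw [le_div_iff₀ hden, one_mul]
        unfold PhiL
        rw [h7]
        rw [h7] at h5
        have h10 : A * Es * lam ≤ A * Es * F G := mul_le_mul_of_nonneg_left h9.le (by positivity)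
        linarith only [h5, h6, h10]) (by
      intro G hG
      have h3 : Es ≤ (numEdges G : ℝ) := by
        rw [hEs]; exact_mod_cast hG.le
      rcases Phi_step F A B C (A * C) K0 κ κL s0 η Es M0 (p ^ 15) hF hNH G h3 with h4 | ⟨h4, h5⟩
      · left
        show 1 ≤ Phi F A B (A * C) Es M0 s0 (p ^ 15) G / (A * lam * Es)
        rw [le_div_iff₀ hden, one_mul]
        refine le_trans ?_ h4
        calc A * lam * Es ≤ Es * Es := mul_le_mul_of_nonneg_right hAlam2 hEs0.le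
          _ = Es ^ 2 := by ring
          _ ≤ (numEdges G : ℝ) ^ 2 := pow_le_pow_left₀ hEs0.le h3 2
      · right
        refine ⟨h4, ?_⟩
        show ∑ t ∈ triangles G, Phi F A B (A * C) Es M0 s0 (p ^ 15) (removeTriangle G t) /
          (A * lam * Es) ≤ _ * (Phi F A B (A * C) Es M0 s0 (p ^ 15) G / (A * lam * Es))
        rw [← Finset.sum_div, ← mul_div_assoc]
        exact div_le_div_of_nonneg_right h5 hden.le) k1 G0
      hk
  refine hsup.trans ?_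
  show Phi F A B (A * C) Es M0 s0 (p ^ 15) G0 / (A * lam * Es) ≤ 32 / L
  rw [div_le_iff₀ hden]
  have hR0 : 0 < R := by linarith only [hR]
  obtain ⟨x, hx0, hx, hSm⟩ := hst.small
  have htop := Phi_start F A B C (A * C) s0 Es M0 p R x G0 hn hA hB hC.le hs0
    (by linarith only [hs1]) hp hN hEs0 hP hs hR hRp (hF.nonneg G0) hFG hst.edges hx0 hx hSm
  refine htop.trans ?_
  have e1 : 32 / L * (A * lam * Es) = M0 + M0 := by rw [hAlam]; field_simp; ring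
  rw [e1]
  have h1 : (A * C * R + A * B * R ^ 8 + 2) * (n : ℝ) ^ 3 / p ≤ M0 := by
    rw [hM0, div_le_div_iff₀ (by positivity) (by positivity)]
    calc (A * C * R + A * B * R ^ 8 + 2) * (n : ℝ) ^ 3 * Es ^ 2
        ≤ (A * C * R + A * B * R ^ 8 + 2) * (n : ℝ) ^ 3 * (4 * K1 ^ 2 * (n:ℝ) ^ 3) :=
          mul_le_mul_of_nonneg_left hEsn2 (by positivity)
      _ = ((A * C * R + A * B * R ^ 8 + 2) * K1 ^ 2 * 4) * ((n:ℝ) ^ 3) ^ 2 := by ring
      _ ≤ (A * C * p) * ((n:ℝ) ^ 3) ^ 2 := mul_le_mul_of_nonneg_right hpR (by positivity)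
      _ = A * C * ((n:ℝ) ^ 3) ^ 2 * p := by ring
  linarith only [h1]

/-- the level event from a quasirandom graph -/
theorem level_event_start (R : ℝ) (hR : 1 ≤ R) (L : ℝ) (hL : 0 < L) :
    ∃ K2 : ℝ, 1 ≤ K2 ∧ ∀ K1 : ℝ, K2 ≤ K1 → ∃ n1 : ℕ, ∀ n : ℕ, n1 ≤ n → ∀ p : ℝ, 0 ≤ p →
      (n : ℝ) = p ^ 1200 → ∀ G0 : SimpleGraph (Fin n), Start R p G0 → ∀ e1 k1 : ℕ,
      numEdges G0 = e1 + 3 * k1 → K1 * (n : ℝ) ^ (3 / 2 : ℝ) ≤ e1 →
      (e1 : ℝ) ≤ 2 * K1 * (n : ℝ) ^ (3 / 2 : ℝ) →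
      V (levBad (FFc (n := n)) e1 (L * 1e60 * e1 / (4 * (e1:ℝ) ^ 2 / (n:ℝ) ^ 3) ^ 2)) k1
        G0 ≤ 32 / L := by
  obtain ⟨C, hC'⟩ : ∃ C : ℝ, C = 1e60 := ⟨_, rfl⟩
  obtain ⟨K0, hK0'⟩ : ∃ K0 : ℝ, K0 = 1e100 := ⟨_, rfl⟩
  obtain ⟨κ, hκ'⟩ : ∃ κ : ℝ, κ = (1e7 * (1e-30) ^ 2) := ⟨_, rfl⟩
  obtain ⟨κL, hκL'⟩ : ∃ κL : ℝ, κL = (40000 / 1e-9) := ⟨_, rfl⟩
  obtain ⟨s0, hs0'⟩ : ∃ s0 : ℝ, s0 = 1e-40 := ⟨_, rfl⟩
  obtain ⟨η, hη'⟩ : ∃ η : ℝ, η = 1e-30 := ⟨_, rfl⟩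
  have hF : ∀ n, 1000 ≤ n → FHyp (n := n) FFc C K0 κ κL s0 η := by
    intro n hn
    rw [hC', hK0', hκ', hκL', hs0', hη']
    exact Fi.FHyp_FF hn
  have hFc : ∀ p : ℝ, 0 ≤ p → 1000 ≤ p → ∀ n : ℕ, 2 ≤ n → (n:ℝ) = p ^ 1200 →
      ∀ G0 : SimpleGraph (Fin n), R ≤ p → Start R p G0 → FFc G0 ≤ C * R * (p * n) := by
    intro p _ hp n hn hN G0 hRp hst
    rw [hC']
    exact FFc_start R p hR hRp hp n hn hN G0 hst
  have hC : 0 < C := by rw [hC']; norm_num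
  have hκ : 0 < κ := by rw [hκ']; norm_num
  have hκL : 0 ≤ κL := by rw [hκL']; norm_num
  have hs0 : 0 < s0 := by rw [hs0']; norm_num
  have hs1 : s0 ≤ 1 / 10000 := by rw [hs0']; norm_num
  have hη : η ≤ 1 / 10000 := by rw [hη']; norm_num
  rw [← hC']
  clear hC' hK0' hκ' hκL' hs0' hη'
  obtain ⟨A, hA⟩ : ∃ A : ℝ, A = 1 / κ := ⟨_, rfl⟩
  have hA0 : 0 < A := by rw [hA]; positivity
  have hAκ : 1 ≤ A * κ := by
    rw [hA, one_div, inv_mul_cancel₀ hκ.ne']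
  obtain ⟨B, hB⟩ : ∃ B : ℝ, B = 4 * C := ⟨_, rfl⟩
  have hB0 : 0 < B := by rw [hB]; positivity
  obtain ⟨K0', hK0'⟩ : ∃ K0' : ℝ, K0' = max K0 0 + 10000 + 65536 * B * κL * 1000 := ⟨_, rfl⟩
  have hx : 0 ≤ 65536 * B * κL * 1000 := by positivity
  have hm0 : 0 ≤ max K0 0 := le_max_right _ _
  have hm1 : K0 ≤ max K0 0 := le_max_left _ _
  have hALC : 0 < A * (L * C) := by positivity
  refine ⟨K0' + A * (L * C), by linarith only [hK0', hx, hm0, hALC], fun K1 hK1 => ?_⟩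
  have hAC : 0 < A * C := by positivity
  have hK12 : 10000 ≤ K1 := by linarith only [hK0', hx, hm0, hALC, hK1]
  have hK16 : K0' ≤ 4 * K1 ^ 2 := by nlinarith only [hK0', hx, hm0, hK1, hs0, hALC]
  have hK17 : A * (L * C) ≤ 16 * K1 ^ 4 := by
    have h1 : K1 ≤ K1 ^ 4 := le_self_pow₀ (by linarith) (by norm_num)
    linarith
  obtain ⟨R1, hR1⟩ : ∃ R1 : ℝ, R1 = (A * C * R + A * B * R ^ 8 + 2) * K1 ^ 2 * 4 / (A * C) := ⟨_, rfl⟩
  have hRpos : 0 < R := by linarith only [hR]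
  have hR0 : 0 < R1 := by rw [hR1]; positivity
  obtain ⟨p0, hp0⟩ : ∃ p0 : ℝ, p0 = 2 + A * C + 2 * 10 ^ 13 / s0 ^ 8 + (2 * K1 + 3) + R1 + R := ⟨_, rfl⟩
  have hs8 : 0 < 2 * 10 ^ 13 / s0 ^ 8 := by positivity
  have hp00 : 0 < p0 := by linarith only [hK0', hx, hm0, hALC, hK1, hAC, hR0, hp0, hs8, hRpos]
  refine ⟨⌈p0 ^ 1200⌉₊ + 1000, fun n hn p hpnn hN G0 hst e1 k1 hk he1 he2 => ?_⟩
  have hbig : p0 ^ 1200 ≤ (n:ℝ) := by
    refine (Nat.le_ceil _).trans ?_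
    have : ⌈p0 ^ 1200⌉₊ ≤ n := by omega
    exact_mod_cast this
  have hp := p_large n p p0 hpnn hN hbig
  have hs : (n:ℝ) ^ (3 / 2 : ℝ) = p ^ 1800 := by
    rw [hN, ← Real.rpow_natCast p 1200, ← Real.rpow_mul hpnn, ← Real.rpow_natCast p 1800]
    norm_num
  rw [hs] at he1 he2
  have hFG : FFc G0 ≤ C * R * (p * n) := hFc p hpnn (by linarith only [hK0', hx, hm0, hALC, hK1, hAC, hR0, hp0, hs8, hp, hR]) n (by omega) hN G0 (by linarith only [hK0', hx, hm0, hALC, hK1, hAC, hR0, hp0, hs8, hp, hR]) hst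
  exact level_large_start n R G0 FFc A B C K0' κ κL s0 η p K1 e1 L ((hF n (by omega)).mono (by linarith only [hs0, hs1, hK0', hx, hm1])) hη
    hA0 hAκ hB0 hC hκL (by linarith only [hK0', hx, hm0]) (by linarith only [hK0', hm0]) hB.ge hs0 hs1 (by linarith only [hs0, hs1, hK0', hx, hm0, hALC, hK1]) hK16 hL hK17
    (by omega) (by linarith only [hK0', hx, hm0, hALC, hK1, hAC, hR0, hp0, hs8, hp, hRpos]) hN (by linarith only [hK0', hx, hm0, hALC, hK1, hR0, hp0, hs8, hp, hRpos]) (by linarith only [hK0', hx, hm0, hALC, hK1, hAC, hR0, hp0, hp, hRpos]) (by linarith only [hAC, hR0, hp0, hs8, hp, hRpos]) (by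
      have h1 : R1 * (A * C) ≤ p * (A * C) := mul_le_mul_of_nonneg_right (by linarith only [hK0', hx, hm0, hALC, hK1, hAC, hp0, hs8, hp, hRpos]) hAC.le
      rw [hR1, div_mul_cancel₀ _ hAC.ne'] at h1
      linarith only [h1]) hR (by linarith only [hK0', hx, hm0, hALC, hK1, hAC, hR0, hp0, hs8, hp, hRpos]) hst hFG e1 k1 rfl he1 he2 hk

end Vale.Agent.P046.QS
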