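import Vale.Agent.P046.H621.Q2

/-!
The process started at a quasirandom graph: sparse sets.
-/

set_option autoImplicit false

open scoped Classical
open Finset

namespace Vale.Agent.P046.QS

open Vale.Agent.P046 Vale.Agent.P046.OS Vale.Agent.P046.C Vale.Agent.P046.LB Vale.Agent.P046.M2

variable {n : ℕ}

/-- the sparsity statement from a grid -/
theorem sparse_of_grid_start (G0 : SimpleGraph (Fin n)) (K : ℕ) (κ D : ℝ) (hD : 0 < D) (m e : ℕ → ℕ) (J : ℕ)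
    (Ψ : SimpleGraph (Fin n) → ℝ) (ε : ℕ → ℝ) (hε : ∀ i, 0 ≤ ε i)
    (he : ∀ i, i ≤ J → 3 ≤ e i)
    (hem : ∀ i, i < J → e (i + 1) = e i + 3 * m i)
    (hX : ∀ i, i < J → ∀ G : SimpleGraph (Fin n), numEdges G = e i →
      ((light κ G).card : ℝ) / D + pen (|rho G - 1| ≤ κ) ≤ ε i * Ψ G)
    (h0 : ∀ G : SimpleGraph (Fin n), e 0 ≤ numEdges G → 0 ≤ Ψ G)
    (hstep : ∀ G : SimpleGraph (Fin n), e 0 < numEdges G → (1 ≤ Ψ G ∨ ((triangles G).Nonempty ∧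
      ∑ t ∈ triangles G, Ψ (removeTriangle G t) ≤ (triangles G).card * Ψ G)))
    (y T : ℕ → ℝ) (hT0 : ∀ i, i ≤ J → 0 < T i)
    (hy : ∀ i, i < J → ∀ G : SimpleGraph (Fin n), numEdges G = e i → (1 - κ) * cc G = y i)
    (hT : ∀ i, i ≤ J → ∀ G : SimpleGraph (Fin n), numEdges G = e i → |rho G - 1| ≤ κ →
      ((triangles G).card : ℝ) ≤ T i)
    (hx : ∀ v, 2 ≤ v → v ≤ K → ∀ i, i < J → 3 * (((2 * v - 2 : ℕ) : ℝ) - 1 / 2) * T (i + 1) ≤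
      (((2 * v - 2 : ℕ) : ℝ) * y i - (((2 * v - 2 : ℕ) : ℝ)) ^ 2) * e i)
    (htop : numEdges G0 = e J)
    (hrho : |rho G0 - 1| ≤ κ) :
    V (notSparse K D) (∑ j ∈ Finset.range J, m j) G0 ≤
      (1 + ∑ j ∈ Finset.range J, ε j) * Ψ G0 + (2 * K / D) *
        ∑ v ∈ Finset.Icc 2 K, (n : ℝ) ^ v * (2 ^ ((v + 1) * v) *
          ((e 0 : ℝ) / e J) ^ (((2 * v - 2 : ℕ) : ℝ) - 1 / 2)) := by
  have h1 := W_forget m e κ (notSparse K D) J G0 ∅ True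
  rw [← h1]
  have h2 := W_mono m e κ (fun G _ _ => notSparse K D G)
    (fun G L ok => f0 D G L ok + (2 * K / D) * SM K G L ok)
    (fun G L ok => notSparse_le K D hD G L ok) J G0 ∅ True
  refine h2.trans ?_
  rw [W_add m e κ (f0 D) (fun G L ok => (2 * K / D) * SM K G L ok), W_mul m e κ (2 * K / D) (SM K)]
  have h3 := W_pot m e κ D hD Ψ J ε hε hem hX h0 hstep J le_rfl G0 htop ∅ True
  rw [pen_true _ trivial, Finset.card_empty, Nat.cast_zero, zero_div, zero_add, zero_add] at h3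
  refine add_le_add h3 ?_
  apply mul_le_mul_of_nonneg_left _ (by positivity)
  have e1 : W m e κ (SM K) J G0 ∅ True =
      ∑ v ∈ Finset.Icc 2 K, ∑ X ∈ Finset.powersetCard v (univ : Finset (Fin n)),
        ∑ M ∈ Finset.powersetCard (2 * v - 2) X.sym2, W m e κ (gM M) J G0 ∅ True := by
    have a1 : (SM K : SimpleGraph (Fin n) → Finset (Sym2 (Fin n)) → Prop → ℝ) = fun G L ok =>
      ∑ v ∈ Finset.Icc 2 K, ∑ X ∈ Finset.powersetCard v (univ : Finset (Fin n)),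
        ∑ M ∈ Finset.powersetCard (2 * v - 2) X.sym2, gM M G L ok := rfl
    rw [a1, W_sum m e κ (Finset.Icc 2 K) (fun v G L ok =>
      ∑ X ∈ Finset.powersetCard v (univ : Finset (Fin n)),
        ∑ M ∈ Finset.powersetCard (2 * v - 2) X.sym2, gM M G L ok)]
    refine Finset.sum_congr rfl fun v _ => ?_
    rw [W_sum m e κ (Finset.powersetCard v (univ : Finset (Fin n))) (fun X G L ok =>
        ∑ M ∈ Finset.powersetCard (2 * v - 2) X.sym2, gM M G L ok)]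
    refine Finset.sum_congr rfl fun X _ => ?_
    rw [W_sum m e κ (Finset.powersetCard (2 * v - 2) X.sym2) (fun M G L ok => gM M G L ok)]
  rw [e1]
  have he0 : (0:ℝ) < e 0 := by
    have := he 0 (by omega)
    exact_mod_cast (by omega : 0 < e 0)
  have heJ : (0:ℝ) < e J := by
    have := he J (by omega)
    exact_mod_cast (by omega : 0 < e J)
  refine Finset.sum_le_sum fun v hv => ?_
  rw [Finset.mem_Icc] at hv
  obtain ⟨Q, hQ⟩ : ∃ Q : ℝ, Q = ((e 0 : ℝ) / e J) ^ (((2 * v - 2 : ℕ) : ℝ) - 1 / 2) := ⟨_, rfl⟩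
  have hQ0 : 0 ≤ Q := by rw [hQ]; exact Real.rpow_nonneg (by positivity) _
  rw [← hQ]
  have hin : ∀ X ∈ Finset.powersetCard v (univ : Finset (Fin n)),
      ∑ M ∈ Finset.powersetCard (2 * v - 2) X.sym2, W m e κ (gM M) J G0 ∅ True ≤
        2 ^ ((v + 1) * v) * Q := by
    intro X hX
    rw [Finset.mem_powersetCard] at hX
    have h5 : ∀ M ∈ Finset.powersetCard (2 * v - 2) X.sym2,
        W m e κ (gM M) J G0 ∅ True ≤ Q := by
      intro M hM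
      rw [Finset.mem_powersetCard] at hM
      have hMne : M.Nonempty := by
        rw [← Finset.card_pos, hM.2]
        omega
      rw [hQ]
      refine W_gM_le m e κ M hMne y T (((2 * v - 2 : ℕ) : ℝ) - 1 / 2) ?_ J he hem hT0 hy hT ?_ J le_rfl
        G0 htop ∅ True (fun _ => hrho)
      · have : (2:ℝ) ≤ ((2 * v - 2 : ℕ) : ℝ) := by exact_mod_cast (by omega : 2 ≤ 2 * v - 2)
        linarith
      · intro i hi
        rw [hM.2]
        exact hx v hv.1 hv.2 i hi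
    refine (Finset.sum_le_sum h5).trans ?_
    rw [Finset.sum_const, nsmul_eq_mul]
    apply mul_le_mul_of_nonneg_right _ hQ0
    have h6 : (Finset.powersetCard (2 * v - 2) X.sym2).card ≤ 2 ^ ((v + 1) * v) := by
      have h7 : (Finset.powersetCard (2 * v - 2) X.sym2).card ≤ 2 ^ X.sym2.card := by
        rw [← Finset.card_powerset]
        exact Finset.card_le_card (fun s hs => Finset.mem_powerset.mpr
          (Finset.mem_powersetCard.mp hs).1)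
      refine h7.trans ?_
      apply Nat.pow_le_pow_right (by norm_num)
      rw [Finset.card_sym2, hX.2, Nat.choose_two_right]
      simp only [Nat.add_sub_cancel]
      exact Nat.div_le_self _ _
    exact_mod_cast h6
  refine (Finset.sum_le_sum hin).trans ?_
  rw [Finset.sum_const, nsmul_eq_mul, Finset.card_powersetCard, Finset.card_univ, Fintype.card_fin]
  apply mul_le_mul_of_nonneg_right _ (by positivity)
  exact_mod_cast Nat.choose_le_pow n v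

/-- choice of the level -/
lemma choose_level_start (n : ℕ) (R p K1 : ℝ) (G0 : SimpleGraph (Fin n)) (hp2 : 2 ≤ p)
    (hN : (n : ℝ) = p ^ 1200) (hK12 : 1 ≤ K1) (hpK : K1 ≤ p) (hR : 1 ≤ R) (hRp : R ≤ p)
    (hst : Start R p G0) :
    ∃ e1 k1 : ℕ, numEdges G0 = e1 + 3 * k1 ∧ K1 * p ^ 1800 ≤ e1 ∧
      (e1 : ℝ) ≤ 2 * (K1 * p ^ 1800) := by
  have hp1 : 1 ≤ p := by linarith
  have hpos : 0 < p := by linarith only [hp2]
  have hs300 : 300 ≤ p ^ 1800 := by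
    calc (300:ℝ) ≤ 2 ^ 9 := by norm_num
      _ ≤ p ^ 9 := pow_le_pow_left₀ (by norm_num) hp2 9
      _ ≤ p ^ 1800 := pow_le_pow_right₀ hp1 (by norm_num)
  have hx3 : 3 ≤ K1 * p ^ 1800 := by
    have : 1 * 300 ≤ K1 * p ^ 1800 := mul_le_mul hK12 hs300 (by norm_num) (by linarith)
    linarith
  have hR0 : 0 < R := by linarith only [hR]
  have hxN : K1 * p ^ 1800 ≤ numEdges G0 := by
    have h0 := hst.edges
    have hn2 : (n:ℝ) ^ 2 = p ^ 2400 := by rw [hN]; ring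
    rw [hn2] at h0
    have h1 : R * (K1 * p ^ 1800) ≤ R * (numEdges G0 : ℝ) := by
      refine le_trans ?_ h0
      calc R * (K1 * p ^ 1800) ≤ p * (p * p ^ 1800) := by
            apply mul_le_mul hRp _ (by positivity) (by positivity)
            exact mul_le_mul_of_nonneg_right hpK (by positivity)
        _ = p ^ 1802 := by ring
        _ ≤ p ^ 2400 := pow_le_pow_right₀ hp1 (by norm_num)
    exact le_of_mul_le_mul_left h1 hR0
  exact LB.exists_level (numEdges G0) _ hx3 hxN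

/-- the density of triangles at the start -/
lemma rho_start (n : ℕ) (R p κ : ℝ) (G0 : SimpleGraph (Fin n)) (hn : 0 < n) (hp2 : 2 ≤ p)
    (hN : (n : ℝ) = p ^ 1200) (hR : 1 ≤ R) (hRp : R ≤ p) (hst : Start R p G0) (hκ : 1 / p ≤ κ) :
    |rho G0 - 1| ≤ κ := by
  obtain ⟨x, hx0, hx, hSm⟩ := hst.small
  have hR0 : 0 < R := by linarith only [hR]
  have hE : (0:ℝ) < numEdges G0 := by
    by_contra hneg
    push Not at hneg
    have h2 : R * (numEdges G0 : ℝ) ≤ 0 := mul_nonpos_of_nonneg_of_nonpos hR0.le hneg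
    have hn0 : (0:ℝ) < n := by exact_mod_cast hn
    have h3 : 0 < (n:ℝ) ^ 2 := by positivity
    linarith only [h2, h3, hst.edges]
  have h1 := x_small x R p hx0 hp2 hR0.le hRp (by rw [← hN]; exact hx)
  exact (rho_of_good G0 hn (by exact_mod_cast hE) x hSm).trans (h1.trans hκ)

lemma top_bound_start (n : ℕ) (R : ℝ) (G0 : SimpleGraph (Fin n)) (A B C K1 p M0 : ℝ) (e0 : ℕ) (hF : FHyp (n := n) FC C 1e100 (1e7 * (1e-30) ^ 2) (40000 / 1e-9) 1e-40 1e-30)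
    (hn : 2 ≤ n) (hA0 : 0 < A) (hB0 : 0 < B) (hC0 : 0 < C) (hp2 : 2 ≤ p) (hN : (n : ℝ) = p ^ 1200)
    (hEs0 : (0:ℝ) < e0) (hP : (n : ℝ) ^ 2 / p ^ 15 / e0 ≤ p ^ 600)
    (hpz1' : 2 * 10 ^ 13 / (1e-40 : ℝ) ^ 8 ≤ p)
    (hM0 : M0 = A * C * ((n : ℝ) ^ 3) ^ 2 / (e0:ℝ) ^ 2) (hK10 : 0 < K1)
    (hpR : (A * C * R + A * B * R ^ 8 + 2) * K1 ^ 2 * 4 ≤ A * C * p)
    (hR : 1 ≤ R) (hRp : R ≤ p) (hst : Start R p G0) (hFG : FC G0 ≤ C * R * (p * n))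
    (he1 : K1 * p ^ 1800 ≤ e0) (he2 : (e0:ℝ) ≤ 2 * (K1 * p ^ 1800)) :
    Phi FC A B (A * C) e0 M0 1e-40 (p ^ 15) G0 / (e0:ℝ) ^ 2 ≤
      2 * (A * C) / K1 ^ 4 := by
  have hp1 : 1 ≤ p := by linarith only [hpz1']
  have hp0 : 0 < p := by linarith only [hpz1']
  have hn0 : (0:ℝ) < n := by rw [hN]; positivity
  have hEs2 : K1 ^ 2 * (n:ℝ) ^ 3 ≤ (e0:ℝ) ^ 2 := by
    have h1 := pow_le_pow_left₀ (by positivity) he1 2
    calc K1 ^ 2 * (n:ℝ) ^ 3 = (K1 * p ^ 1800) ^ 2 := by rw [hN]; ring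
      _ ≤ _ := h1
  have hEs2' : (e0:ℝ) ^ 2 ≤ 4 * K1 ^ 2 * (n:ℝ) ^ 3 := by
    have h1 := pow_le_pow_left₀ hEs0.le he2 2
    calc (e0:ℝ) ^ 2 ≤ (2 * (K1 * p ^ 1800)) ^ 2 := h1
      _ = _ := by rw [hN]; ring
  have hR0 : 0 < R := by linarith only [hR]
  obtain ⟨x, hx0, hx, hSm⟩ := hst.small
  have htop := Phi_start FC A B C (A * C) 1e-40 e0 M0 p R x G0 hn hA0 hB0 hC0.le (by norm_num)
    (by norm_num) hp2 hN hEs0 hP hpz1' hR hRp (hF.nonneg G0) hFG hst.edges hx0 hx hSm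
  have h1 : (A * C * R + A * B * R ^ 8 + 2) * (n : ℝ) ^ 3 / p ≤ M0 := by
    rw [hM0, div_le_div_iff₀ (by positivity) (by positivity)]
    calc (A * C * R + A * B * R ^ 8 + 2) * (n : ℝ) ^ 3 * (e0:ℝ) ^ 2
        ≤ (A * C * R + A * B * R ^ 8 + 2) * (n : ℝ) ^ 3 * (4 * K1 ^ 2 * (n:ℝ) ^ 3) :=
          mul_le_mul_of_nonneg_left hEs2' (by positivity)
      _ = ((A * C * R + A * B * R ^ 8 + 2) * K1 ^ 2 * 4) * ((n:ℝ) ^ 3) ^ 2 := by ring
      _ ≤ (A * C * p) * ((n:ℝ) ^ 3) ^ 2 := mul_le_mul_of_nonneg_right hpR (by positivity)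
      _ = A * C * ((n:ℝ) ^ 3) ^ 2 * p := by ring
  have h2 : Phi FC A B (A * C) e0 M0 1e-40 (p ^ 15) G0 ≤ 2 * M0 := by
    linarith only [htop, h1]
  rw [div_le_div_iff₀ (by positivity) (by positivity)]
  have h3 : (K1 ^ 2 * (n:ℝ) ^ 3) ^ 2 ≤ ((e0:ℝ) ^ 2) ^ 2 := pow_le_pow_left₀ (by positivity) hEs2 2
  have h4 : 2 * M0 * K1 ^ 4 ≤ 2 * (A * C) * (e0:ℝ) ^ 2 := by
    rw [hM0]
    have e1 : 2 * (A * C * ((n:ℝ) ^ 3) ^ 2 / (e0:ℝ) ^ 2) * K1 ^ 4 =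
      2 * (A * C) * ((K1 ^ 2 * (n:ℝ) ^ 3) ^ 2 / (e0:ℝ) ^ 2) := by ring
    rw [e1]
    apply mul_le_mul_of_nonneg_left _ (by positivity)
    rw [div_le_iff₀ (by positivity)]
    linarith only [h3]
  calc _ ≤ 2 * M0 * K1 ^ 4 := mul_le_mul_of_nonneg_right h2 (by positivity)
    _ ≤ _ := h4

lemma frac_bound_start (n : ℕ) (R p K1 E : ℝ) (G0 : SimpleGraph (Fin n)) (hp : 0 < p) (hK1 : 0 < K1)
    (hR : 0 < R) (hN : (n : ℝ) = p ^ 1200) (hst : Start R p G0)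
    (he2 : E ≤ 2 * (K1 * p ^ 1800)) :
    E / (numEdges G0 : ℝ) ≤ 2 * K1 * R / p ^ 600 := by
  have h0 := hst.edges
  have hn2 : (n:ℝ) ^ 2 = p ^ 2400 := by rw [hN]; ring
  rw [hn2] at h0
  have hE : (0:ℝ) < numEdges G0 := by
    by_contra hneg
    push Not at hneg
    have h2 : R * (numEdges G0 : ℝ) ≤ 0 := mul_nonpos_of_nonneg_of_nonpos hR.le hneg
    have h3 : 0 < p ^ 2400 := by positivity
    linarith only [h2, h3, h0]
  rw [div_le_div_iff₀ hE (by positivity)]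
  calc E * p ^ 600 ≤ 2 * (K1 * p ^ 1800) * p ^ 600 :=
        mul_le_mul_of_nonneg_right he2 (by positivity)
    _ = 2 * K1 * p ^ 2400 := by ring
    _ ≤ 2 * K1 * (R * (numEdges G0 : ℝ)) := mul_le_mul_of_nonneg_left h0 (by positivity)
    _ = _ := by ring

/-- one application of the grid theorem -/
lemma apply_grid_start (n : ℕ) (G0 : SimpleGraph (Fin n)) (K : ℕ) (hK : 2 ≤ K) (κ A B C K1 p M0 D c2 : ℝ) (e0 k0 : ℕ)
    (hκ : κ = 1 / (48 * K)) (hA0 : 0 < A) (hB0 : 0 < B) (hC0 : 0 < C)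
    (hF : FHyp (n := n) FC C 1e100 (1e7 * (1e-30) ^ 2) (40000 / 1e-9) 1e-40 1e-30)
    (hn1000 : 1000 ≤ n) (hN : (n : ℝ) = p ^ 1200) (hp2 : 2 ≤ p)
    (hNH : NHyp n A B C (A * C) 1e100 (1e7 * (1e-30) ^ 2) (40000 / 1e-9) 1e-40 1e-30 e0 M0 (p ^ 15))
    (hM0 : M0 = A * C * ((n : ℝ) ^ 3) ^ 2 / (e0:ℝ) ^ 2) (hD0 : 0 < D)
    (hc2 : c2 = ((1 / (clow κ * 1e-9)) / D + (1 / (1e7 * κ ^ 2)) / e0) *
      ((e0:ℝ) ^ 2 / (A * √(e0:ℝ))))
    (hK1c : 2 * (K:ℝ) ≤ K1) (he1 : K1 * p ^ 1800 ≤ e0) (hEs : (3:ℝ) ≤ e0)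
    (hNe : numEdges G0 = e0 + 3 * k0) (hκn : |rho G0 - 1| ≤ κ)
    (J : ℕ) (e m : ℕ → ℕ) (g1 : e 0 = e0) (g2 : e J = e0 + 3 * k0)
    (g3 : ∀ i, i < J → e (i + 1) = e i + 3 * m i)
    (g4 : ∀ i, i < J → (e (i + 1) : ℝ) ≤ (1 + κ) * e i)
    (g6 : ∑ i ∈ Finset.range J, m i = k0) :
    V (notSparse K D) k0 G0 ≤
      (1 + ∑ j ∈ Finset.range J, c2 / √(e j : ℝ)) *
        (Phi FC A B (A * C) e0 M0 1e-40 (p ^ 15) G0 / (e0:ℝ) ^ 2) +
        (2 * K / D) *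
        ∑ v ∈ Finset.Icc 2 K, (n : ℝ) ^ v * (2 ^ ((v + 1) * v) *
          ((e0 : ℝ) / (numEdges G0 : ℝ)) ^ (((2 * v - 2 : ℕ) : ℝ) - 1 / 2)) := by
  have hK' : (2:ℝ) ≤ K := by exact_mod_cast hK
  have hκ0 : 0 < κ := by rw [hκ]; positivity
  have hp1 : 1 ≤ p := by linarith only [hp2]
  have hp0 : 0 < p := by linarith only [hp2]
  have hn0 : (0:ℝ) < n := by rw [hN]; positivity
  have hnpos : 0 < n := by omega
  have hEs0 : (0:ℝ) < e0 := by linarith only [hEs]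
  have hmono := level_mono m e J g3
  have hne0 : ∀ i, i ≤ J → (e0 : ℝ) ≤ e i := by
    intro i hi
    have := hmono i hi
    rw [g1] at this
    exact_mod_cast this
  obtain ⟨Ψ, hΨ⟩ : ∃ Ψ : SimpleGraph (Fin n) → ℝ, Ψ = fun G =>
    Phi FC A B (A * C) e0 M0 1e-40 (p ^ 15) G / (e0:ℝ) ^ 2 := ⟨_, rfl⟩
  have hFle : ∀ G : SimpleGraph (Fin n), (e0:ℝ) ≤ numEdges G →
      A * √((e0:ℝ) * numEdges G) * FC G ≤ Phi FC A B (A * C) e0 M0 1e-40 (p ^ 15) G := by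
    intro G hG
    refine F_le_Phi FC hF.nonneg A B (A * C) e0 M0 1e-40 (p ^ 15) hA0 hB0 (by positivity) hEs0
      hM0.ge hnpos (by positivity) (by norm_num) ?_ G hG
    linarith only [hNH, hNH.hEq]
  have hcl := clow_pos κ hκ0
  have hse0 : 0 < √(e0:ℝ) := Real.sqrt_pos.mpr hEs0
  have hc20 : 0 ≤ c2 := by rw [hc2]; (clear * - hcl hD0 hκ0 hEs hA0; positivity)
  have H1 : ∀ i, i ≤ J → 3 ≤ e i := by
    intro i hi
    have h1 := hne0 i hi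
    have h2 : (3:ℝ) ≤ e i := by linarith only [hEs, h1]
    exact_mod_cast h2
  have H2 : ∀ i, i < J → ∀ G : SimpleGraph (Fin n), numEdges G = e i →
      ((light κ G).card : ℝ) / D + pen (|rho G - 1| ≤ κ) ≤ c2 / √(e i : ℝ) * Ψ G := by
    intro i hi G hG
    have h1 : (e0:ℝ) ≤ numEdges G := by rw [hG]; exact hne0 i hi.le
    have h2 := X_le κ D e0 A hκ0 hD0 hEs0 hA0 _ G hnpos h1 (hFle G h1)
    rw [← hc2, hG] at h2
    rw [hΨ]
    exact h2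
  have H3 : ∀ G : SimpleGraph (Fin n), e 0 ≤ numEdges G → 0 ≤ Ψ G := by
    intro G hG
    rw [g1] at hG
    have h1 : (e0:ℝ) ≤ numEdges G := by exact_mod_cast hG
    have h2 := hFle G h1
    have h3 : 0 ≤ A * √((e0:ℝ) * numEdges G) * FC G := by
      have := hF.nonneg G
      (clear * - hA0 this; positivity)
    rw [hΨ]
    exact div_nonneg (h3.trans h2) (by positivity)
  have H4 : ∀ G : SimpleGraph (Fin n), e 0 < numEdges G → (1 ≤ Ψ G ∨ ((triangles G).Nonempty ∧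
      ∑ t ∈ triangles G, Ψ (removeTriangle G t) ≤ (triangles G).card * Ψ G)) := by
    intro G hG
    rw [g1] at hG
    have h1 : (e0:ℝ) ≤ numEdges G := by exact_mod_cast hG.le
    rw [hΨ]
    rcases Phi_step FC A B C (A * C) 1e100 (1e7 * (1e-30) ^ 2) (40000 / 1e-9) 1e-40 1e-30 e0 M0
      (p ^ 15) hF hNH G h1 with h4 | ⟨h4, h5⟩
    · left
      show 1 ≤ Phi FC A B (A * C) e0 M0 1e-40 (p ^ 15) G / (e0:ℝ) ^ 2
      rw [le_div_iff₀ (by (clear * - hEs; positivity)), one_mul]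
      exact (pow_le_pow_left₀ hEs0.le h1 2).trans h4
    · right
      refine ⟨h4, ?_⟩
      show ∑ t ∈ triangles G, Phi FC A B (A * C) e0 M0 1e-40 (p ^ 15) (removeTriangle G t) /
        (e0:ℝ) ^ 2 ≤ _ * (Phi FC A B (A * C) e0 M0 1e-40 (p ^ 15) G / (e0:ℝ) ^ 2)
      rw [← Finset.sum_div, ← mul_div_assoc]
      exact div_le_div_of_nonneg_right h5 (by (clear * - hEs; positivity))
  have H5 : ∀ i, i ≤ J → 0 < (1 + κ) * (4 * (e i : ℝ) ^ 2 / (n:ℝ) ^ 3) * e i / 3 := by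
    intro i hi
    have := hne0 i hi
    have h2 : (0:ℝ) < e i := by linarith only [hEs, this]
    (clear * - hκ0 h2 hn1000; positivity)
  have H6 : ∀ i, i < J → ∀ G : SimpleGraph (Fin n), numEdges G = e i →
      (1 - κ) * cc G = (1 - κ) * (4 * (e i : ℝ) ^ 2 / (n:ℝ) ^ 3) := by
    intro i _ G hG
    unfold cc
    rw [hG]
  have H7 : ∀ i, i ≤ J → ∀ G : SimpleGraph (Fin n), numEdges G = e i → |rho G - 1| ≤ κ →
      ((triangles G).card : ℝ) ≤ (1 + κ) * (4 * (e i : ℝ) ^ 2 / (n:ℝ) ^ 3) * e i / 3 := by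
    intro i hi G hG hr
    have h1 := hne0 i hi
    have h2 : (0:ℝ) < numEdges G := by rw [hG]; linarith only [hEs, h1]
    rw [T_eq G hnpos (by exact_mod_cast h2)]
    unfold cc
    rw [hG] at h2 ⊢
    have h3 := (abs_le.mp hr).2
    have h4 : 0 ≤ 4 * (e i : ℝ) ^ 2 / (n:ℝ) ^ 3 * e i := by (clear * - h2 hn1000; positivity)
    have h5 := mul_le_mul_of_nonneg_right h3 h4
    linarith only [h5]
  have H8 : ∀ v, 2 ≤ v → v ≤ K → ∀ i, i < J → 3 * (((2 * v - 2 : ℕ) : ℝ) - 1 / 2) *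
      ((1 + κ) * (4 * (e (i + 1) : ℝ) ^ 2 / (n:ℝ) ^ 3) * e (i + 1) / 3) ≤
      (((2 * v - 2 : ℕ) : ℝ) * ((1 - κ) * (4 * (e i : ℝ) ^ 2 / (n:ℝ) ^ 3)) -
        (((2 * v - 2 : ℕ) : ℝ)) ^ 2) * e i := by
    intro v hv2 hvK i hi
    have h1 := hne0 i hi.le
    have h2 : (0:ℝ) < e i := by linarith only [hEs, h1]
    refine hx_num K hK κ ((n:ℝ) ^ 3) (e i) (e (i + 1)) hκ (by positivity) h2 (by (clear * -; positivity))
      (g4 i hi) ?_ _ ?_ ?_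
    · rw [le_div_iff₀ (by positivity)]
      have h3 : (K1 * p ^ 1800) ^ 2 ≤ (e i : ℝ) ^ 2 :=
        pow_le_pow_left₀ (by
          have : 0 ≤ K1 := by linarith only [hK1c, hK']
          (clear * - this hp2; positivity)) (he1.trans h1) 2
      have h4 : (2 * (K:ℝ)) ^ 2 ≤ K1 ^ 2 := pow_le_pow_left₀ (by positivity) hK1c 2
      have h5 : (2 * (K:ℝ)) ^ 2 * (n:ℝ) ^ 3 ≤ K1 ^ 2 * (n:ℝ) ^ 3 :=
        mul_le_mul_of_nonneg_right h4 (by positivity)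
      have e1 : K1 ^ 2 * (n:ℝ) ^ 3 = (K1 * p ^ 1800) ^ 2 := by rw [hN]; ring
      linarith only [h3, h5, e1]
    · have : (2:ℝ) ≤ ((2 * v - 2 : ℕ) : ℝ) := by exact_mod_cast (by omega : 2 ≤ 2 * v - 2)
      linarith only [this]
    · exact_mod_cast (by omega : 2 * v - 2 ≤ 2 * K)
  have hmain := sparse_of_grid_start G0 K κ D hD0 m e J Ψ (fun i => c2 / √(e i : ℝ))
    (fun i => by (clear * - hc20; positivity)) H1 g3 H2 H3 H4
    (fun i => (1 - κ) * (4 * (e i : ℝ) ^ 2 / (n:ℝ) ^ 3))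
    (fun i => (1 + κ) * (4 * (e i : ℝ) ^ 2 / (n:ℝ) ^ 3) * e i / 3) H5 H6 H7 H8
    (by rw [g2]; exact hNe) hκn
  rw [g6, g1, g2, ← hNe] at hmain
  rw [hΨ] at hmain
  exact hmain

lemma sparse_n_start (R : ℝ) (hR1 : 1 ≤ R) (K : ℕ) (hK : 2 ≤ K) (κ A B C cL cR c3 K1 Ru Q δ : ℝ) (hδ : 0 < δ)
    (hκ : κ = 1 / (48 * K)) (hA0 : 0 < A) (hC0 : 0 < C) (hB : B = 4 * C)
    (hcL : cL = 1 / (clow κ * 1e-9)) (hcR : cR = 1 / (1e7 * κ ^ 2))
    (hc3 : c3 = (9 / κ) / A * (2 * cL / δ + cR))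
    (hK1c : 2 * (K:ℝ) ≤ K1) (hK1d : 4 * A * C * (1 + c3) ≤ δ * K1)
    (hK1sq : (1e100:ℝ) ≤ 4 * K1 ^ 2) (hR : Ru = 2 * K1 * R)
    (hQ : Q = 2 * K * (K * (2 ^ ((K + 1) * K) * Ru ^ (2 * K))) / δ)
    (hAκ : 1 ≤ A * (1e7 * (1e-30) ^ 2))
    (hBnum : 65536 * B * (40000 / 1e-9) ≤ (1 / 1000) * 1e100)
    (n : ℕ) (p : ℝ) (hp2 : 2 ≤ p) (hN : (n : ℝ) = p ^ 1200)
    (hF : FHyp (n := n) FC C 1e100 (1e7 * (1e-30) ^ 2) (40000 / 1e-9) 1e-40 1e-30)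
    (hpz1' : 2 * 10 ^ 13 / (1e-40 : ℝ) ^ 8 ≤ p) (hpAC : A * C ≤ p) (hpK : 2 * K1 + 3 ≤ p) (hpK24 : 24 * K1 ≤ p)
    (hpR : (A * C * R + A * B * R ^ 8 + 2) * K1 ^ 2 * 4 ≤ A * C * p) (hpQ : 2 * Q ≤ p * δ)
    (hRp : R ≤ p) (G0 : SimpleGraph (Fin n)) (hst : Start R p G0)
    (hFG : FC G0 ≤ C * R * (p * n)) :
      ∃ e0 k0 : ℕ, numEdges G0 = e0 + 3 * k0 ∧ K1 * p ^ 1800 ≤ e0 ∧
        V (notSparse K (δ * p ^ 1800)) k0 G0 ≤ δ := by
  have hK' : (2:ℝ) ≤ K := by exact_mod_cast hK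
  have hκ0 : 0 < κ := by rw [hκ]; positivity
  have hκ1 : κ ≤ 1 / 96 := by
    rw [hκ]
    apply one_div_le_one_div_of_le (by norm_num)
    linarith only [hK']
  have hB0 : 0 < B := by rw [hB]; positivity
  have hcL0 : 0 < cL := by
    have := clow_pos κ hκ0
    rw [hcL]; positivity
  have hcR0 : 0 < cR := by rw [hcR]; (clear * - hκ0; positivity)
  have hc30 : 0 < c3 := by rw [hc3]; (clear * - hκ0 hA0 hcL0 hδ hcR0; positivity)
  have hK11 : 1 ≤ K1 := by linarith only [hK1c, hK', hκ1]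
  have hK10 : 0 < K1 := by linarith only [hK1c, hK', hκ0, hκ1]
  have hRu1 : 1 ≤ Ru := by
    rw [hR]
    have : 1 * 1 ≤ K1 * R := mul_le_mul hK11 hR1 (by norm_num) hK10.le
    linarith only [this]
  have hp1 : 1 ≤ p := by linarith only [hpz1', hκ0, hκ1]
  have hp0 : 0 < p := by linarith only [hpz1', hκ0, hκ1]
  have hn1000 : 1000 ≤ n := by
    have h1 : (1000:ℝ) ≤ n := by
      rw [hN]
      calc (1000:ℝ) ≤ 2 ^ 10 := by norm_num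
        _ ≤ p ^ 10 := pow_le_pow_left₀ (by norm_num) hp2 10
        _ ≤ p ^ 1200 := pow_le_pow_right₀ hp1 (by norm_num)
    exact_mod_cast h1
  obtain ⟨e0, k0, hNe, he1, he2⟩ := choose_level_start n R p K1 G0 hp2 hN hK11 (by linarith only [hpz1', hpK, hK10]) hR1 hRp hst
  refine ⟨e0, k0, hNe, he1, ?_⟩
  have hp18 : (256:ℝ) ≤ p ^ 1800 := by
    calc (256:ℝ) = 2 ^ 8 := by norm_num
      _ ≤ p ^ 8 := pow_le_pow_left₀ (by norm_num) hp2 8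
      _ ≤ p ^ 1800 := pow_le_pow_right₀ hp1 (by norm_num)
  have hEsK : K1 * 256 ≤ e0 := (mul_le_mul_of_nonneg_left hp18 hK10.le).trans he1
  have hEs3 : (3:ℝ) ≤ e0 := by linarith only [hK1c, hK', hEsK]
  have hEs0 : (0:ℝ) < e0 := by linarith only [hK1c, hK', hκ1, hEsK]
  have hκe : 6 ≤ κ * e0 := by
    have h1 : κ * (K1 * 256) ≤ κ * e0 := mul_le_mul_of_nonneg_left hEsK hκ0.le
    have h2 : κ * (2 * K * 256) ≤ κ * (K1 * 256) := by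
      apply mul_le_mul_of_nonneg_left _ hκ0.le
      linarith only [hK1c]
    have h3 : κ * (2 * K * 256) = 32 / 3 := by rw [hκ]; field_simp; norm_num
    linarith only [h1, h2, h3]
  obtain ⟨J, e, m, g1, g2, g3, g4, g5, g6⟩ := exists_grid κ hκ0 (by linarith only [hκ0, hκ1]) k0 e0 hκe
  have hκp : 1 / p ≤ κ := by
    rw [hκ, div_le_div_iff₀ (by positivity) (by positivity)]
    have h1 : 48 * (K:ℝ) ≤ 24 * K1 := by linarith only [hK1c]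
    have h2 : K1 * 256 * (1 / 8) ≤ p * 32 := by linarith only [hpK, hK10]
    have h3 : 24 * K1 ≤ p := by linarith only [hpK24]
    linarith only [h1, h3]
  have hκn : |rho G0 - 1| ≤ κ := rho_start n R p κ G0 (by omega) hp2 hN hR1 hRp hst hκp
  obtain ⟨M0, hM0⟩ : ∃ M0, M0 = A * C * ((n : ℝ) ^ 3) ^ 2 / (e0:ℝ) ^ 2 := ⟨_, rfl⟩
  obtain ⟨hNH, hP⟩ := NHyp_of n A B C 1e100 (1e7 * (1e-30) ^ 2) (40000 / 1e-9) 1e-40 1e-30 e0 M0 p
    K1 (by norm_num) hA0 hAκ hB0 hC0.le (by norm_num) (by norm_num)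
    hBnum hB.ge (by norm_num) (by norm_num) hK11 hK1sq hp2 hN he1 (by linarith only [he2]) hM0.ge
    hpAC hpz1' hpK
  obtain ⟨D, hD⟩ : ∃ D, D = δ * p ^ 1800 := ⟨_, rfl⟩
  have hD0 : 0 < D := by rw [hD]; positivity
  rw [← hD]
  obtain ⟨c2, hc2⟩ : ∃ c2 : ℝ, c2 = (cL / D + cR / e0) * ((e0:ℝ) ^ 2 / (A * √(e0:ℝ))) := ⟨_, rfl⟩
  have hse0 : 0 < √(e0:ℝ) := Real.sqrt_pos.mpr hEs0
  have hc20 : 0 ≤ c2 := by rw [hc2]; (clear * - hcL0 hD0 hcR0 hEs3 hA0; positivity)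
  have hmain := apply_grid_start n G0 K hK κ A B C K1 p M0 D c2 e0 k0 hκ hA0 hB0 hC0 hF hn1000 hN hp2 hNH
    hM0 hD0 (by rw [hc2, hcL, hcR]) hK1c he1 hEs3 hNe hκn J e m g1 g2 g3 g4 g6
  refine hmain.trans ?_
  obtain ⟨Ψt, hΨt⟩ : ∃ Ψt, Ψt =
    Phi FC A B (A * C) e0 M0 1e-40 (p ^ 15) G0 / (e0:ℝ) ^ 2 := ⟨_, rfl⟩
  have hΨtop : Ψt ≤ 2 * (A * C) / K1 ^ 4 := by
    rw [hΨt]
    exact top_bound_start n R G0 A B C K1 p M0 e0 hF (by omega) hA0 hB0 hC0 hp2 hN hEs0 hP hpz1' hM0 hK10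
      hpR hR1 hRp hst hFG he1 he2
  rw [← hΨt]
  obtain ⟨S, hS⟩ : ∃ S, S = ∑ j ∈ Finset.range J, c2 / √(e j : ℝ) := ⟨_, rfl⟩
  have hS0 : 0 ≤ S := by
    rw [hS]
    exact Finset.sum_nonneg fun j _ => by (clear * - hc20; positivity)
  have hsum : S ≤ c3 * K1 := by
    have h1 : S = c2 * ∑ j ∈ Finset.range J, 1 / √(e j : ℝ) := by
      rw [hS, Finset.mul_sum]
      exact Finset.sum_congr rfl fun j _ => by ring
    rw [h1]
    refine (mul_le_mul_of_nonneg_left g5 hc20).trans ?_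
    rw [hc2, hc3]
    exact c_bound cL cR D e0 κ A δ K1 (p ^ 1800) hcL0 hcR0 hκ0 hA0 hδ hK11 (by positivity) hD hEs0
      he2
  rw [← hS]
  have hfirst : (1 + S) * Ψt ≤ δ / 2 := by
    have h1 : 1 + S ≤ (1 + c3) * K1 := by
      have e1 : (1 + c3) * K1 = K1 + c3 * K1 := by ring
      rw [e1]
      linarith only [hsum, hK11]
    calc (1 + S) * Ψt ≤ (1 + S) * (2 * (A * C) / K1 ^ 4) :=
          mul_le_mul_of_nonneg_left hΨtop (by positivity)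
      _ ≤ ((1 + c3) * K1) * (2 * (A * C) / K1 ^ 4) :=
          mul_le_mul_of_nonneg_right h1 (by positivity)
      _ = 2 * A * C * (1 + c3) / K1 ^ 3 := by field_simp
      _ ≤ δ / 2 := by
          rw [div_le_div_iff₀ (by positivity) (by norm_num)]
          have h2 : δ * K1 ≤ δ * K1 ^ 3 := by
            apply mul_le_mul_of_nonneg_left _ hδ.le
            exact le_self_pow₀ hK11 (by norm_num)
          linarith only [hK1d, h2]
  have hsecond := union_num K Ru p D ((e0 : ℝ) / (numEdges G0 : ℝ)) n hRu1 hp1 hD0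
    (by (clear * - hEs3; positivity)) (by
    rw [hR]
    exact frac_bound_start n R p K1 e0 G0 hp0 hK10 (by linarith only [hR1]) hN hst he2) hN
  have hsecond' := second_num K Ru Q δ p D hδ hp1 hD hQ hpQ
  linarith only [hfirst, hsecond, hsecond']

lemma sparse_fixed_start (R : ℝ) (hR1 : 1 ≤ R) (K : ℕ) (hK : 2 ≤ K) (δ : ℝ) (hδ : 0 < δ) (Λ : ℝ) :
    ∃ K1 p0 : ℝ, Λ ≤ K1 ∧ 1 ≤ K1 ∧ 2 ≤ p0 ∧ ∀ (n : ℕ) (p : ℝ), p0 ≤ p → (n : ℝ) = p ^ 1200 →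
      ∀ G0 : SimpleGraph (Fin n), Start R p G0 →
      ∃ e0 k0 : ℕ, numEdges G0 = e0 + 3 * k0 ∧ K1 * p ^ 1800 ≤ e0 ∧
        V (notSparse K (δ * p ^ 1800)) k0 G0 ≤ δ := by
  have hK' : (2:ℝ) ≤ K := by exact_mod_cast hK
  obtain ⟨κ, hκ⟩ : ∃ κ : ℝ, κ = 1 / (48 * K) := ⟨_, rfl⟩
  have hκ0 : 0 < κ := by rw [hκ]; positivity
  obtain ⟨A, hA⟩ : ∃ A : ℝ, A = 1e53 := ⟨_, rfl⟩
  obtain ⟨C, hC⟩ : ∃ C : ℝ, C = 1e60 := ⟨_, rfl⟩
  obtain ⟨B, hB⟩ : ∃ B : ℝ, B = 4 * C := ⟨_, rfl⟩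
  have hA0 : 0 < A := by rw [hA]; norm_num
  have hC0 : 0 < C := by rw [hC]; norm_num
  have hB0 : 0 < B := by rw [hB]; positivity
  obtain ⟨cL, hcL⟩ : ∃ cL : ℝ, cL = 1 / (clow κ * 1e-9) := ⟨_, rfl⟩
  obtain ⟨cR, hcR⟩ : ∃ cR : ℝ, cR = 1 / (1e7 * κ ^ 2) := ⟨_, rfl⟩
  have hcL0 : 0 < cL := by
    have := clow_pos κ hκ0
    rw [hcL]; positivity
  have hcR0 : 0 < cR := by rw [hcR]; (clear * - hκ0; positivity)
  obtain ⟨c3, hc3⟩ : ∃ c3 : ℝ, c3 = (9 / κ) / A * (2 * cL / δ + cR) := ⟨_, rfl⟩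
  have hc30 : 0 < c3 := by rw [hc3]; (clear * - hκ0 hA hcL0 hδ hcR0; positivity)
  obtain ⟨w, hw⟩ : ∃ w : ℝ, w = 4 * A * C * (1 + c3) / δ := ⟨_, rfl⟩
  have hw0 : 0 ≤ w := by rw [hw]; (clear * - hA hC hc30 hδ; positivity)
  obtain ⟨K1, hK1⟩ : ∃ K1 : ℝ, K1 = |Λ| + 1e51 + 2 * K + w := ⟨_, rfl⟩
  have hΛa := abs_nonneg Λ
  have hK1Λ : Λ ≤ K1 := by
    have := le_abs_self Λ
    rw [hK1]; linarith only [hK', hw0, this]
  have hK1b : 1e51 ≤ K1 := by rw [hK1]; linarith only [hK', hw0, hΛa]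
  have hK1c : 2 * (K:ℝ) ≤ K1 := by rw [hK1]; linarith only [hw0, hΛa]
  have hK1w : w ≤ K1 := by
    have h2 : (0:ℝ) ≤ 1e51 := by norm_num
    rw [hK1]; linarith only [hK', hΛa]
  have hK1d : 4 * A * C * (1 + c3) ≤ δ * K1 := by
    rw [hw, div_le_iff₀ hδ] at hK1w
    linarith only [hK1w]
  have hK11 : 1 ≤ K1 := by linarith only [hw0, hK1, hΛa]
  have hK10 : 0 < K1 := by linarith only [hK', hw0, hK1, hΛa]
  have hK1sq : (1e100:ℝ) ≤ 4 * K1 ^ 2 := by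
    have h1 : (1e51:ℝ) ^ 2 ≤ K1 ^ 2 := pow_le_pow_left₀ (by norm_num) hK1b 2
    have h2 : (1e100:ℝ) ≤ 4 * (1e51) ^ 2 := by norm_num
    linarith only [h1]
  obtain ⟨Ru, hR⟩ : ∃ Ru : ℝ, Ru = 2 * K1 * R := ⟨_, rfl⟩
  have hRpos : 0 < R := by linarith only [hR1]
  obtain ⟨Q, hQ⟩ : ∃ Q : ℝ, Q = 2 * K * (K * (2 ^ ((K + 1) * K) * Ru ^ (2 * K))) / δ := ⟨_, rfl⟩
  have hQ0 : 0 ≤ Q := by
    have : 0 ≤ Ru := by rw [hR]; positivity
    rw [hQ]; (clear * - hK this hδ; positivity)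
  obtain ⟨z1, hz1⟩ : ∃ z1 : ℝ, z1 = 2 * 10 ^ 13 / (1e-40) ^ 8 := ⟨_, rfl⟩
  obtain ⟨z2, hz2⟩ : ∃ z2 : ℝ, z2 = (A * C * R + A * B * R ^ 8 + 2) * K1 ^ 2 * 4 / (A * C) := ⟨_, rfl⟩
  have hz10 : 0 ≤ z1 := by rw [hz1]; positivity
  have hz20 : 0 ≤ z2 := by rw [hz2]; (clear * - hA hC hB0 hK1b hRpos; positivity)
  have hQδ : 0 ≤ 2 * Q / δ := by (clear * - hQ0 hδ; positivity)
  have hAC0 : 0 < A * C := by positivity
  have hAκ : 1 ≤ A * (1e7 * (1e-30) ^ 2) := by rw [hA]; norm_num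
  have hBnum : 65536 * B * (40000 / 1e-9) ≤ (1 / 1000) * 1e100 := by rw [hB, hC]; norm_num
  refine ⟨K1, 1000 + A * C + z1 + (24 * K1 + 3) + z2 + 2 * Q / δ + R, hK1Λ, hK11, by linarith only [hw0, hK10, hK1, hΛa, hz10, hz20, hQδ, hAC0, hRpos], ?_⟩
  intro n p hp hN G0 hst
  have hp2 : 2 ≤ p := by linarith only [hw0, hK1, hΛa, hz1, hz20, hQδ, hAC0, hp, hRpos, hK10, hz10]
  have hp1 : 1 ≤ p := by linarith only [hw0, hK1, hΛa, hz1, hz20, hQδ, hAC0, hp, hRpos, hK10, hz10]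
  have hn1000 : 1000 ≤ n := by
    have h1 : (1000:ℝ) ≤ n := by
      rw [hN]
      calc (1000:ℝ) ≤ 2 ^ 10 := by norm_num
        _ ≤ p ^ 10 := pow_le_pow_left₀ (by norm_num) hp2 10
        _ ≤ p ^ 1200 := pow_le_pow_right₀ hp1 (by norm_num)
    exact_mod_cast h1
  have hF := Fi.FHyp_FF (n := n) hn1000
  rw [← hC] at hF
  have hFG : FC G0 ≤ C * R * (p * n) := by
    rw [hC]
    exact FFc_start R p hR1 (by linarith only [hz10, hz20, hQδ, hAC0, hp, hRpos, hK10])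
      (by linarith only [hz10, hz20, hQδ, hAC0, hp, hRpos, hK10]) n (by omega) hN G0 hst
  have hz2p : z2 ≤ p := by linarith only [hK', hw0, hK1, hΛa, hz1, hQδ, hAC0, hp, hRpos, hK10, hz10]
  have hQp : 2 * Q / δ ≤ p := by linarith only [hw0, hK1, hΛa, hz1, hz20, hAC0, hp, hRpos, hK10, hz10]
  rw [hz2, div_le_iff₀ hAC0] at hz2p
  rw [div_le_iff₀ hδ] at hQp
  have hz1p : z1 ≤ p := by linarith only [hK', hw0, hK1, hΛa, hz20, hQδ, hAC0, hp, hRpos, hK10, hz10]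
  rw [hz1] at hz1p
  exact sparse_n_start R hR1 K hK κ A B C cL cR c3 K1 Ru Q δ hδ hκ hA0 hC0 hB hcL hcR hc3 hK1c hK1d hK1sq hR hQ
    hAκ hBnum n p hp2 hN hF hz1p (by linarith only [hw0, hK1, hΛa, hz10, hz20, hQδ, hp, hRpos, hK10]) (by linarith only [hz10, hz20, hQδ, hAC0, hp, hRpos, hK10])
    (by linarith only [hz10, hz20, hQδ, hAC0, hp, hRpos, hK10]) (by linarith only [hz2p]) hQp
    (by linarith only [hz10, hz20, hQδ, hAC0, hp, hRpos, hK10]) G0 hst hFG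

/-- **Sparse sets** from a quasirandom graph. -/
theorem sparse_start (R : ℝ) (hR1 : 1 ≤ R) (K : ℕ) (δ Λ : ℝ) (hδ : 0 < δ) :
    ∃ n0 : ℕ, ∀ n : ℕ, n0 ≤ n → ∀ p : ℝ, 0 ≤ p → (n : ℝ) = p ^ 1200 →
      ∀ G0 : SimpleGraph (Fin n), Start R p G0 → ∀ e1 k1 : ℕ, numEdges G0 = e1 + 3 * k1 →
      (e1 : ℝ) ≤ Λ * (n : ℝ) ^ (3 / 2 : ℝ) →
      V (notSparse K (δ * (n : ℝ) ^ (3 / 2 : ℝ))) k1 G0 ≤ δ := by
  obtain ⟨K1, p0, h1, h2, h3, h4⟩ := sparse_fixed_start R hR1 (K + 2) (by omega) δ hδ Λ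
  refine ⟨⌈p0 ^ 1200⌉₊, fun n hn p hpnn hN G0 hst e1 k1 hNe he1 => ?_⟩
  have hbig : p0 ^ 1200 ≤ n := by
    have := Nat.le_ceil (p0 ^ 1200)
    have h5 : ((⌈p0 ^ 1200⌉₊ : ℕ) : ℝ) ≤ n := by exact_mod_cast hn
    linarith only [this, h5]
  have hp := p_large n p p0 hpnn hN hbig
  have hs : (n:ℝ) ^ (3 / 2 : ℝ) = p ^ 1800 := by
    rw [hN, ← Real.rpow_natCast p 1200, ← Real.rpow_mul hpnn, ← Real.rpow_natCast p 1800]
    norm_num
  rw [hs] at he1 ⊢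
  obtain ⟨e0, k0, h6, h7, h8⟩ := h4 n p hp hN G0 hst
  have hp0 : 0 < p := by linarith only [h3, hp]
  have h9 : e1 ≤ e0 := by
    have : (e1:ℝ) ≤ e0 := by
      refine he1.trans (le_trans ?_ h7)
      exact mul_le_mul_of_nonneg_right h1 (by positivity)
    exact_mod_cast this
  have h10 : k1 = k0 + (k1 - k0) := by omega
  rw [h10, V_add_steps]
  have hK : ∀ G : SimpleGraph (Fin n), notSparse K (δ * p ^ 1800) G ≤
      notSparse (K + 2) (δ * p ^ 1800) G := by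
    intro G
    by_cases hns : ∃ B, B ⊆ G.edgeFinset ∧ (B.card : ℝ) ≤ δ * p ^ 1800 ∧
        Sparse (K + 2) (G.edgeFinset \ B)
    · obtain ⟨B, hB1, hB2, hB3⟩ := hns
      have e1 : notSparse K (δ * p ^ 1800) G = 0 := by
        unfold notSparse
        rw [if_pos ⟨B, hB1, hB2, fun X hX M hM hne hMX => hB3 X (by omega) M hM hne hMX⟩]
      have e2 : notSparse (K + 2) (δ * p ^ 1800) G = 0 := by
        unfold notSparse
        rw [if_pos ⟨B, hB1, hB2, hB3⟩]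
      rw [e1, e2]
    · have e2 : notSparse (K + 2) (δ * p ^ 1800) G = 1 := by
        unfold notSparse
        rw [if_neg hns]
      rw [e2]
      exact notSparse_le_one _ _ _
  refine le_trans (V_mono _ _ (fun G => ?_) k0 G0) h8
  exact (V_notSparse_le n K _ _ G).trans (hK G)

end Vale.Agent.P046.QS
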