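import Vale.Agent.P046.H621.Q3

/-!
The process started at a quasirandom graph: the limit.
-/

set_option autoImplicit false

open scoped Classical
open Finset

namespace Vale.Agent.P046.QS

open Vale.Agent.P046 Vale.Agent.P046.OS Vale.Agent.P046.C Vale.Agent.P046.LB Vale.Agent.P046.M2
open Vale.Agent.P046.Lv
open Vale.Agent.P046.K (Hyp zd wd deg)
open Vale.Agent.P046.S (P LH MaxDeg Sep nlive ldeg mon EnergyU)

/-- the conditional estimate from a quasirandom graph -/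
theorem core_start (R : ℝ) (hR1 : 1 ≤ R) (ε : ℝ) (hε : 0 < ε) : ∃ n0 : ℕ, ∀ n : ℕ, n0 ≤ n →
    ∀ p : ℝ, 0 ≤ p → (n : ℝ) = p ^ 1200 → ∀ G0 : SimpleGraph (Fin n), Start R p G0 → ∃ k1 : ℕ,
    ∃ b : SimpleGraph (Fin n) → ℝ, (∀ G, 0 ≤ b G) ∧ V b k1 G0 ≤ ε ∧
      ∀ G : SimpleGraph (Fin n), b G < 1 → V dev (n.choose 2) G ≤ ε * (n : ℝ) ^ (3 / 2 : ℝ) := by
  have hE : EnergyU := Vale.Agent.P046.K.energyU
  obtain ⟨L, hL⟩ : ∃ L : ℝ, L = 64 / ε := ⟨_, rfl⟩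
  have hL0 : 0 < L := by rw [hL]; positivity
  obtain ⟨Λ, hΛ⟩ : ∃ Λ : ℝ, Λ = L * 1e60 := ⟨_, rfl⟩
  have hΛ0 : 0 ≤ Λ := by rw [hΛ]; positivity
  obtain ⟨T, hT, Dh, hDh, hg1⟩ := S.hg_final hE ε hε
  obtain ⟨Dl, hDl, hl⟩ := level_data Λ hΛ0
  obtain ⟨K2, hK2, hlev⟩ := level_event_start R hR1 L hL0
  obtain ⟨K1, hK1⟩ : ∃ K1 : ℝ, K1 = K2 + Dh + Dl := ⟨_, rfl⟩
  obtain ⟨n1, hn1⟩ := hlev K1 (by linarith only [hDh, hDl, hK1])
  have hK11 : 1 ≤ K1 := by linarith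
  have hK1D : Dh + Dl ≤ 4 * K1 ^ 2 := by nlinarith only [hK2, hK1]
  obtain ⟨δ, hδ, hg2⟩ := hg1 (16 * K1 ^ 2) (by linarith only [hDh, hDl, hK1D])
  obtain ⟨A, hA⟩ : ∃ A : ℝ, A = 48 * K1 ^ 2 + 12e23 * Λ / δ := ⟨_, rfl⟩
  have hq : 0 ≤ 12e23 * Λ / δ := by positivity
  have hA0 : 0 < A := by
    have : 0 < 48 * K1 ^ 2 := by positivity
    linarith only [hDh, hDl, hK1D, hA, hq]
  have hAδ : 12e23 * Λ ≤ δ * A := by
    have : 12e23 * Λ = δ * (12e23 * Λ / δ) := by field_simp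
    rw [this]
    apply mul_le_mul_of_nonneg_left _ hδ.le
    have : 0 < 48 * K1 ^ 2 := by positivity
    linarith only [hDh, hDl, hK1D, hA]
  obtain ⟨K₀, N₀, hg3⟩ := hg2 ⌈A⌉₊
  obtain ⟨ds, hds0, hds1, hds2, hds3⟩ := choose_ds ε A δ hε hA0 hδ
  obtain ⟨n2, hn2⟩ := sparse_start R hR1 (2 * K₀) ds (2 * K1) hds0
  obtain ⟨p0, hp0⟩ : ∃ p0 : ℝ, p0 = 2 + K1 + R := ⟨_, rfl⟩
  refine ⟨n1 + n2 + 2 * N₀ + 1 + ⌈p0 ^ 1200⌉₊, fun n hn p hpnn hN G0 hst => ?_⟩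
  have hbig : p0 ^ 1200 ≤ (n:ℝ) := by
    refine (Nat.le_ceil _).trans ?_
    have : ⌈p0 ^ 1200⌉₊ ≤ n := by omega
    exact_mod_cast this
  have hp := p_large n p p0 hpnn hN hbig
  have hnpos : 0 < n := by omega
  have hn1' : (1:ℝ) ≤ n := by exact_mod_cast hnpos
  have hs : (n:ℝ) ^ (3 / 2 : ℝ) = p ^ 1800 := by
    rw [hN, ← Real.rpow_natCast p 1200, ← Real.rpow_mul hpnn, ← Real.rpow_natCast p 1800]
    norm_num
  obtain ⟨e1, k1, hk, he1, he2⟩ := choose_level_start n R p K1 G0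
    (by linarith only [hDh, hDl, hK2, hK1, hp0, hp, hR1]) hN hK11 (by linarith only [hp0, hp, hR1]) hR1
    (by linarith only [hp0, hp, hK11]) hst
  rw [← hs] at he1 he2
  obtain ⟨s, hsd⟩ : ∃ s : ℝ, (n : ℝ) ^ (3 / 2 : ℝ) = s := ⟨_, rfl⟩
  have hs0 : 0 < s := by rw [← hsd]; exact Real.rpow_pos_of_pos (by linarith only [hn1']) _
  have hsn : (n:ℝ) ≤ s := by
    rw [← hsd]
    calc (n:ℝ) = (n:ℝ) ^ (1:ℝ) := (Real.rpow_one _).symm
      _ ≤ (n:ℝ) ^ (3 / 2 : ℝ) := Real.rpow_le_rpow_of_exponent_le hn1' (by norm_num)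
  have hb1 := hn1 n (by omega) p hpnn hN G0 hst e1 k1 hk he1 (by linarith only [he2])
  have hb2 := hn2 n (by omega) p hpnn hN G0 hst e1 k1 hk (by linarith only [he2])
  rw [hsd] at he1 he2 hb2
  refine ⟨k1, fun G => levBad FFc e1 (L * 1e60 * e1 / (4 * (e1:ℝ) ^ 2 / (n:ℝ) ^ 3) ^ 2) G +
    M2.notSparse (2 * K₀) (ds * s) G, fun G => add_nonneg (levBad_nonneg _ _ _ _)
      (notSparse_nonneg _ _ _), ?_, ?_⟩
  · rw [LB.V_add_fun]
    have : (32:ℝ) / L = ε / 2 := by rw [hL]; field_simp; norm_num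
    rw [this] at hb1
    linarith only [hds1, hb1, hb2]
  · intro G hG
    beta_reduce at hG
    have g1 := levBad_nonneg (FFc (n := n)) e1
      (L * 1e60 * e1 / (4 * (e1:ℝ) ^ 2 / (n:ℝ) ^ 3) ^ 2) G
    have g2 := notSparse_nonneg (2 * K₀) (ds * s) G
    obtain ⟨g3, g4⟩ := levBad_zero _ _ _ G (by linarith only [hG, g2] : levBad (FFc (n := n)) e1
      (L * 1e60 * e1 / (4 * (e1:ℝ) ^ 2 / (n:ℝ) ^ 3) ^ 2) G < 1)
    obtain ⟨B, -, hB2, hB3⟩ := notSparse_zero (2 * K₀) (ds * s) G (by linarith only [hG, g1])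
    rw [hsd]
    rw [← hΛ] at g4
    refine good_graph ε T δ A Λ K1 ds (Dh + Dl) s e1 K₀ N₀ G hnpos hε hsd hs0 hΛ0 hK11 hK1D
      (fun D hD => hg3 D ⟨by linarith only [hDl, hD, hD.1], hD.2⟩)
      (fun D A' hD hA' m G' hc hF B hB => hl D A' (by linarith only [hDh, hD]) hA' m G' hc hF B hB)
      (by linarith only [hA, hq]) hAδ hds2 hds3 hds0.le he1 (by linarith only [he2]) ?_ g3 g4 B hB2 hB3
    have h5 : (2 * N₀ : ℕ) ≤ n := by omega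
    have h6 : (2:ℝ) * N₀ ≤ n := by exact_mod_cast h5
    have h7 : s ≤ e1 := by
      have : 1 * s ≤ K1 * s := mul_le_mul_of_nonneg_right hK11 hs0.le
      linarith only [he1, this]
    linarith only [hsn, h6, h7]

variable {n : ℕ}

lemma numEdges_le_choose (G : SimpleGraph (Fin n)) : numEdges G ≤ n.choose 2 := by
  have := SimpleGraph.card_edgeFinset_le_card_choose_two (G := G)
  rw [Fintype.card_fin] at this
  exact this

lemma V_split_start (f : SimpleGraph (Fin n) → ℝ) (k1 : ℕ) (G0 : SimpleGraph (Fin n)) :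
    V f (n.choose 2) G0 =
      V (V f (n.choose 2)) k1 G0 := by
  rw [← V_add_steps, Nat.add_comm, V_stop]
  exact numEdges_le_choose G0

/-- the mean deviation is small -/
lemma dev_bound_start (G0 : SimpleGraph (Fin n)) (K s x ε : ℝ) (hs : 0 < s) (hε : 0 < ε) (hx0 : 0 ≤ x) (hx : x ≤ s)
    (hxn : xn n = x)
    (hK : V (fun G => (numEdges G : ℝ) ^ 2) (n.choose 2) G0 ≤ K * s ^ 2)
    (k1 : ℕ) (b : SimpleGraph (Fin n) → ℝ) (hb0 : ∀ G, 0 ≤ b G)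
    (hb : V b k1 G0 ≤ ε ^ 2)
    (hcore : ∀ G : SimpleGraph (Fin n), b G < 1 → V dev (n.choose 2) G ≤ ε ^ 2 * s) :
    V dev (n.choose 2) G0 ≤ (ε ^ 2 + ε * (K + 2)) * s := by
  have h0 : V dev (n.choose 2) G0 = V (V dev (n.choose 2)) k1 G0 :=
    V_split_start dev k1 G0
  rw [h0]
  have hdev0 : ∀ H : SimpleGraph (Fin n), 0 ≤ dev H := fun H => abs_nonneg _
  have h1 : ∀ G : SimpleGraph (Fin n), V dev (n.choose 2) G ≤
      ε ^ 2 * s + (ε / (2 * s) * V (fun H => dev H ^ 2) (n.choose 2) G + s / (2 * ε) * b G) := by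
    intro G
    have h2 := V_nonneg' dev hdev0 (n.choose 2) G
    have h3 := V_sq_le dev (n.choose 2) G
    have h4 := hb0 G
    obtain ⟨y, hy⟩ : ∃ y : ℝ, y = V dev (n.choose 2) G := ⟨_, rfl⟩
    obtain ⟨z, hz⟩ : ∃ z : ℝ, z = V (fun H => dev H ^ 2) (n.choose 2) G := ⟨_, rfl⟩
    have h5 : 0 ≤ s / (2 * ε) * b G := by positivity
    have h8 := hcore G
    rw [← hy] at h2 h3 h8 ⊢
    rw [← hz] at h3 ⊢
    have h6 : 0 ≤ z := (sq_nonneg y).trans h3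
    have h7 : 0 ≤ ε / (2 * s) * z := by positivity
    rcases lt_or_ge (b G) 1 with hlt | hge
    · have := h8 hlt
      linarith
    · have e1 : ε / (2 * s) * y ^ 2 + s / (2 * ε) - y = (ε * y - s) ^ 2 / (2 * s * ε) := by
        field_simp
        ring
      have e2 : 0 ≤ (ε * y - s) ^ 2 / (2 * s * ε) := by positivity
      have e3 : ε / (2 * s) * y ^ 2 ≤ ε / (2 * s) * z :=
        mul_le_mul_of_nonneg_left h3 (by positivity)
      have e4 : s / (2 * ε) ≤ s / (2 * ε) * b G := le_mul_of_one_le_right (by positivity) hge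
      have e5 : 0 ≤ ε ^ 2 * s := by positivity
      linarith
  refine (V_mono _ _ h1 k1 G0).trans ?_
  rw [V_add_fun (fun _ => ε ^ 2 * s), V_const, V_add_fun (fun H => ε / (2 * s) * _), V_mul_fun,
    V_mul_fun, ← V_split_start]
  have h9 : V (fun H => dev H ^ 2) (n.choose 2) G0 ≤ (2 * K + 2) * s ^ 2 := by
    have h10 : ∀ H : SimpleGraph (Fin n), dev H ^ 2 ≤ 2 * (numEdges H : ℝ) ^ 2 + 2 * s ^ 2 := by
      intro H
      unfold dev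
      rw [sq_abs, hxn]
      have : x ^ 2 ≤ s ^ 2 := pow_le_pow_left₀ hx0 hx 2
      nlinarith [sq_nonneg ((numEdges H : ℝ) + x)]
    refine (V_mono _ _ h10 _ _).trans ?_
    rw [V_add_fun (fun H => 2 * (numEdges H : ℝ) ^ 2), V_mul_fun, V_const]
    have h11 : V (fun H => (numEdges H : ℝ) ^ 2) (n.choose 2) G0 ≤
        K * s ^ 2 := hK
    linarith
  have h12 : ε / (2 * s) * V (fun H => dev H ^ 2) (n.choose 2) G0 ≤
      ε / (2 * s) * ((2 * K + 2) * s ^ 2) := mul_le_mul_of_nonneg_left h9 (by positivity)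
  have h13 : s / (2 * ε) * V b k1 G0 ≤ s / (2 * ε) * ε ^ 2 :=
    mul_le_mul_of_nonneg_left hb (by positivity)
  have e6 : ε / (2 * s) * ((2 * K + 2) * s ^ 2) = ε * (K + 1) * s := by
    field_simp
  have e7 : s / (2 * ε) * ε ^ 2 = ε * s / 2 := by
    field_simp
  rw [e6] at h12
  rw [e7] at h13
  have h14 : 0 ≤ ε * s := by positivity
  calc ε ^ 2 * s + (ε / (2 * s) * V (fun H => dev H ^ 2) (n.choose 2) G0 +
        s / (2 * ε) * V b k1 G0)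
      ≤ ε ^ 2 * s + (ε * (K + 1) * s + ε * s / 2) := by linarith
    _ ≤ (ε ^ 2 + ε * (K + 2)) * s := by nlinarith

/-- the second moment from a quasirandom graph -/
theorem second_moment_start (R : ℝ) (hR1 : 1 ≤ R) :
    ∃ K : ℝ, 0 < K ∧ ∃ n0 : ℕ, ∀ n : ℕ, n0 ≤ n → ∀ p : ℝ, 0 ≤ p → (n : ℝ) = p ^ 1200 →
      ∀ G0 : SimpleGraph (Fin n), Start R p G0 →
      V (fun G => (numEdges G : ℝ) ^ 2) (n.choose 2) G0 ≤ K * (n : ℝ) ^ 3 := by
  obtain ⟨C, hC'⟩ : ∃ C : ℝ, C = 1e60 := ⟨_, rfl⟩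
  obtain ⟨K0, hK0'⟩ : ∃ K0 : ℝ, K0 = 1e100 := ⟨_, rfl⟩
  obtain ⟨κ, hκ'⟩ : ∃ κ : ℝ, κ = (1e7 * (1e-30) ^ 2) := ⟨_, rfl⟩
  obtain ⟨κL, hκL'⟩ : ∃ κL : ℝ, κL = (40000 / 1e-9) := ⟨_, rfl⟩
  obtain ⟨s0, hs0'⟩ : ∃ s0 : ℝ, s0 = 1e-40 := ⟨_, rfl⟩
  obtain ⟨η, hη'⟩ : ∃ η : ℝ, η = 1e-30 := ⟨_, rfl⟩
  have hF : ∀ n, 1000 ≤ n → FHyp (n := n) FFc C K0 κ κL s0 η := by
    intro n hn
    rw [hC', hK0', hκ', hκL', hs0', hη']
    exact Fi.FHyp_FF hn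
  have hFc : ∀ p : ℝ, 0 ≤ p → 1000 ≤ p → ∀ n : ℕ, 2 ≤ n → (n:ℝ) = p ^ 1200 →
      ∀ G0 : SimpleGraph (Fin n), R ≤ p → Start R p G0 → FFc G0 ≤ C * R * (p * n) := by
    intro p _ hp n hn hN G0 hRp hst
    rw [hC']
    exact FFc_start R p hR1 hRp hp n hn hN G0 hst
  have hC : 0 < C := by rw [hC']; norm_num
  have hκ : 0 < κ := by rw [hκ']; norm_num
  have hκL : 0 ≤ κL := by rw [hκL']; norm_num
  have hs0 : 0 < s0 := by rw [hs0']; norm_num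
  have hs1 : s0 ≤ 1 / 10000 := by rw [hs0']; norm_num
  have hη : η ≤ 1 / 10000 := by rw [hη']; norm_num
  clear hC' hK0' hκ' hκL' hs0' hη'
  obtain ⟨A, hA⟩ : ∃ A : ℝ, A = 1 / κ := ⟨_, rfl⟩
  have hA0 : 0 < A := by rw [hA]; positivity
  have hAκ : 1 ≤ A * κ := by
    rw [hA, one_div, inv_mul_cancel₀ hκ.ne']
  obtain ⟨B, hB⟩ : ∃ B : ℝ, B = 4 * C := ⟨_, rfl⟩
  have hB0 : 0 < B := by rw [hB]; positivity
  obtain ⟨K0', hK0'⟩ : ∃ K0' : ℝ, K0' = max K0 0 + 10000 + 65536 * B * κL * 1000 := ⟨_, rfl⟩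
  have hx : 0 ≤ 65536 * B * κL * 1000 := by positivity
  have hm0 : 0 ≤ max K0 0 := le_max_right _ _
  have hm1 : K0 ≤ max K0 0 := le_max_left _ _
  have hK1 : 10000 ≤ K0' := by linarith only [hK0', hx, hm0]
  have hK2 : K0 ≤ K0' := by linarith only [hK0', hx, hm1]
  have hK3 : 65536 * B * κL ≤ (1 / 1000) * K0' := by linarith only [hK0', hm0]
  have hK4 : K0' ≤ 4 * K0' ^ 2 := by nlinarith only [hK0', hx, hm0]
  have hR0 : 0 < R := by linarith only [hR1]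
  obtain ⟨p0, hp0⟩ : ∃ p0 : ℝ, p0 = 2 + A * C + 2 * 10 ^ 13 / s0 ^ 8 + (2 * K0' + 3) + R :=
    ⟨_, rfl⟩
  have hAC : 0 < A * C := by positivity
  have hs8 : 0 < 2 * 10 ^ 13 / s0 ^ 8 := by positivity
  obtain ⟨K, hK⟩ : ∃ K : ℝ, K = 2 * A * C + K0' ^ 2 + (A * C * R + A * B * R ^ 8 + 2) := ⟨_, rfl⟩
  have hKpos : 0 < K := by rw [hK]; positivity
  refine ⟨K, hKpos, ⌈p0 ^ 1200⌉₊ + 1000, fun n hn p hpnn hN G0 hst => ?_⟩
  have hbig : p0 ^ 1200 ≤ (n:ℝ) := by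
    refine (Nat.le_ceil _).trans ?_
    have : ⌈p0 ^ 1200⌉₊ ≤ n := by omega
    exact_mod_cast this
  have hp := p_large n p p0 hpnn hN hbig
  have hFG : FFc G0 ≤ C * R * (p * n) :=
    hFc p hpnn (by linarith only [hK1, hp0, hAC, hs8, hp, hR0]) n (by omega) hN G0
      (by linarith only [hK1, hp0, hAC, hs8, hp]) hst
  have := sq_start n R G0 FFc A B C K0' κ κL s0 η p K0' ((hF n (by omega)).mono hK2) hη hA0 hAκ hB0
    hC.le hκL hK1 hK3 (by rw [hB]) hs0 hs1 (by linarith only [hK1]) hK4 (by omega)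
    (by linarith only [hK1, hp0, hAC, hs8, hp, hR0]) hN
    (by linarith only [hK1, hp0, hs8, hp, hR0])
    (by linarith only [hK1, hp0, hAC, hp, hR0]) (by linarith only [hp0, hAC, hs8, hp, hR0])
    hR1 (by linarith only [hK1, hp0, hAC, hs8, hp]) hst hFG (n.choose 2) (numEdges_le_choose G0)
  refine this.trans ?_
  rw [← hK]

/-- convergence in mean from a quasirandom graph -/
theorem l1_start (R : ℝ) (hR1 : 1 ≤ R) (η : ℝ) (hη : 0 < η) : ∃ n0 : ℕ, ∀ n : ℕ, n0 ≤ n →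
    ∀ p : ℝ, 0 ≤ p → (n : ℝ) = p ^ 1200 → ∀ G0 : SimpleGraph (Fin n), Start R p G0 →
    V dev (n.choose 2) G0 ≤ η * (n : ℝ) ^ (3 / 2 : ℝ) := by
  obtain ⟨K, hK0, n1, hK⟩ := second_moment_start R hR1
  obtain ⟨ε, hε, hε2⟩ : ∃ ε : ℝ, 0 < ε ∧ ε ^ 2 + ε * (K + 2) < η := by
    refine ⟨min 1 (η / (2 * (K + 3))), by positivity, ?_⟩
    have h1 : min 1 (η / (2 * (K + 3))) ≤ 1 := min_le_left _ _
    have h2 : min 1 (η / (2 * (K + 3))) ≤ η / (2 * (K + 3)) := min_le_right _ _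
    have h3 : 0 < min 1 (η / (2 * (K + 3))) := by positivity
    rw [le_div_iff₀ (by positivity)] at h2
    nlinarith
  obtain ⟨n0, hn0⟩ := core_start R hR1 (ε ^ 2) (by positivity)
  refine ⟨n0 + n1 + 2, fun n hn p hpnn hN G0 hst => ?_⟩
  obtain ⟨k1, b, hb0, hb, hcore⟩ := hn0 n (by omega) p hpnn hN G0 hst
  have hnpos : (0:ℝ) < n := by
    have : 0 < n := by omega
    exact_mod_cast this
  have hs : 0 < (n : ℝ) ^ (3 / 2 : ℝ) := Real.rpow_pos_of_pos hnpos _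
  have hK2 : V (fun G => (numEdges G : ℝ) ^ 2) (n.choose 2) G0 ≤
      K * ((n : ℝ) ^ (3 / 2 : ℝ)) ^ 2 := by
    rw [C.Fi.s_sq]
    exact hK n (by omega) p hpnn hN G0 hst
  have h1 := dev_bound_start G0 K _ (xn n) ε hs hε (xn_le n).1 (xn_le n).2 rfl hK2 k1 b hb0 hb hcore
  refine h1.trans ?_
  exact mul_le_mul_of_nonneg_right hε2.le hs.le

end Vale.Agent.P046.QS
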