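import Vale.Agent.P046.H621.Q4

/-!
The process started at a quasirandom graph: the statement in terms of codegrees.
-/

set_option autoImplicit false

open scoped Classical
open Finset

namespace Vale.Agent.P046.QS

open Vale.Agent.P046 Vale.Agent.P046.OS Vale.Agent.P046.C Vale.Agent.P046.LB
open Vale.Agent.P046.Lv

variable {n : ℕ}

/-- after `n.choose 2` steps the process has stopped -/
lemma run_cliqueFree (G H : SimpleGraph (Fin n)) (hH : H ∈ (run (n.choose 2) G).support) :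
    H.CliqueFree 3 := by
  have h : triangles H = ∅ := by
    rcases run_support _ _ _ hH with h | h
    · exact h
    · have hG := numEdges_le_choose G
      have h0 : numEdges H = 0 := by omega
      have hc : n.choose 2 = 0 := by omega
      rw [Finset.eq_empty_iff_forall_notMem]
      intro t ht
      have h3 := numEdges_removeTriangle H t ht
      omega
  unfold triangles at h
  rwa [SimpleGraph.cliqueFinset_eq_empty_iff] at h

lemma codeg_eq_ncard (G : SimpleGraph (Fin n)) (u v : Fin n) :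
    (G.commonNeighbors u v).ncard = codeg G u v := by
  unfold codeg
  rw [← Set.ncard_coe_finset]
  congr 1
  ext w
  simp [SimpleGraph.mem_commonNeighbors]

/-- a dense graph with small codegree deviations is a good starting graph -/
lemma start_of (c₀ : ℝ) (hc : 0 < c₀) (hn : 0 < n) (G : SimpleGraph (Fin n))
    (he : c₀ * (n:ℝ) ^ 2 ≤ numEdges G)
    (hcod : ∀ u v, u ≠ v → |(codeg G u v : ℝ) - 4 * (numEdges G : ℝ) ^ 2 / (n:ℝ) ^ 3| ≤
      (n:ℝ) ^ (1 / 2 + 1 / 2400 : ℝ)) :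
    Start (1 + 1 / c₀ + 1 / (16 * c₀ ^ 4)) ((n:ℝ) ^ (1 / 1200 : ℝ)) G := by
  have hn0 : (0:ℝ) < n := by exact_mod_cast hn
  have hE : (0:ℝ) < numEdges G := lt_of_lt_of_le (by positivity) he
  have hc4 : 0 < 1 / (16 * c₀ ^ 4) := by positivity
  have hc1 : 0 < 1 / c₀ := by positivity
  have hp : (0:ℝ) < (n:ℝ) ^ (1 / 1200 : ℝ) := Real.rpow_pos_of_pos hn0 _
  refine ⟨?_, ?_⟩
  · have h1 : (n:ℝ) ^ 2 ≤ 1 / c₀ * numEdges G := by
      rw [one_div, inv_mul_eq_div, le_div_iff₀ hc]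
      linarith only [he]
    have h2 : 0 ≤ (1 + 1 / (16 * c₀ ^ 4)) * (numEdges G : ℝ) := by positivity
    linarith only [h1, h2]
  · obtain ⟨y, hy⟩ : ∃ y : ℝ, y = (n:ℝ) ^ (1 / 2 + 1 / 2400 : ℝ) := ⟨_, rfl⟩
    have hy0 : 0 < y := by rw [hy]; exact Real.rpow_pos_of_pos hn0 _
    have hy2 : y ^ 2 = n * (n:ℝ) ^ (1 / 1200 : ℝ) := by
      rw [hy, ← Real.rpow_natCast, ← Real.rpow_mul hn0.le]
      nth_rewrite 2 [← Real.rpow_one (n:ℝ)]
      rw [← Real.rpow_add hn0]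
      norm_num
    rw [← hy] at hcod
    have hcc : 4 * c₀ ^ 2 * n ≤ cc G := by
      unfold cc
      rw [le_div_iff₀ (by positivity)]
      have := pow_le_pow_left₀ (by positivity) he 2
      calc 4 * c₀ ^ 2 * n * (n:ℝ) ^ 3 = 4 * (c₀ * (n:ℝ) ^ 2) ^ 2 := by ring
        _ ≤ 4 * (numEdges G : ℝ) ^ 2 := mul_le_mul_of_nonneg_left this (by norm_num)
    refine ⟨y / (4 * c₀ ^ 2 * n), by positivity, ?_, ?_⟩
    · have e1 : (y / (4 * c₀ ^ 2 * n)) ^ 2 * n =
          1 / (16 * c₀ ^ 4) * (n:ℝ) ^ (1 / 1200 : ℝ) := by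
        rw [div_pow, hy2]
        field_simp
        norm_num
      rw [e1]
      apply mul_le_mul_of_nonneg_right _ hp.le
      linarith only [hc1]
    · intro u v huv
      have h1 := hcod u v huv
      have hcc0 : 0 < cc G := lt_of_lt_of_le (by positivity) hcc
      have e2 : zz G u v = ((codeg G u v : ℝ) - 4 * (numEdges G : ℝ) ^ 2 / (n:ℝ) ^ 3) / cc G := by
        unfold zz rr cc
        field_simp
      rw [e2, abs_div, abs_of_pos hcc0]
      calc |(codeg G u v : ℝ) - 4 * (numEdges G : ℝ) ^ 2 / (n:ℝ) ^ 3| / cc G ≤ y / cc G :=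
            div_le_div_of_nonneg_right h1 hcc0.le
        _ ≤ y / (4 * c₀ ^ 2 * n) := div_le_div_of_nonneg_left hy0.le (by positivity) hcc

/-- the mean deviation, written out -/
lemma sum_dev (hn : 0 < n) (G₀ : SimpleGraph (Fin n)) (k : ℕ) :
    ∑ G, (run k G₀ G).toReal *
      |(numEdges G : ℝ) / (n : ℝ) ^ (3 / 2 : ℝ) - 1 / (2 * √2)| =
      V dev k G₀ / (n : ℝ) ^ (3 / 2 : ℝ) := by
  unfold V expect
  rw [Finset.sum_div]
  refine Finset.sum_congr rfl fun G _ => ?_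
  rw [dev_div n hn, mul_div_assoc]

/-- **The process started at a quasirandom graph.** -/
theorem quasirandom (c₀ ε : ℝ) (hc : 0 < c₀) (hε : 0 < ε) : ∃ n₀ : ℕ, ∀ n : ℕ, n₀ ≤ n →
    ∀ G₀ : SimpleGraph (Fin n), c₀ * (n:ℝ) ^ 2 ≤ numEdges G₀ →
    (∀ u v, u ≠ v → |((G₀.commonNeighbors u v).ncard : ℝ) -
      4 * (numEdges G₀ : ℝ) ^ 2 / (n:ℝ) ^ 3| ≤ (n:ℝ) ^ (1 / 2 + 1 / 2400 : ℝ)) →
    ∑ G, (run (n.choose 2) G₀ G).toReal *
      |(numEdges G : ℝ) / (n : ℝ) ^ (3 / 2 : ℝ) - 1 / (2 * √2)| ≤ ε := by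
  obtain ⟨n0, h0⟩ := l1_start (1 + 1 / c₀ + 1 / (16 * c₀ ^ 4)) (by
    have h1 : 0 < 1 / c₀ := by positivity
    have h2 : 0 < 1 / (16 * c₀ ^ 4) := by positivity
    linarith only [h1, h2]) ε hε
  refine ⟨n0 + 1, fun n hn G₀ he hcod => ?_⟩
  have hnpos : 0 < n := by omega
  have hn0 : (0:ℝ) < n := by exact_mod_cast hnpos
  have hs : 0 < (n : ℝ) ^ (3 / 2 : ℝ) := Real.rpow_pos_of_pos hn0 _
  have hst := start_of c₀ hc hnpos G₀ he (fun u v huv => by
    have := hcod u v huv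
    rwa [codeg_eq_ncard] at this)
  have h1 := h0 n (by omega) _ (Real.rpow_nonneg hn0.le _) (by
    rw [← Real.rpow_natCast, ← Real.rpow_mul hn0.le]
    norm_num) G₀ hst
  rw [sum_dev hnpos, div_le_iff₀ hs]
  exact h1

end Vale.Agent.P046.QS
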