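import Vale.Agent.P046.H621.Q5

/-!
The binomial random graph is quasirandom.
-/

set_option autoImplicit false

open scoped Classical
open Finset

namespace Vale.Agent.P046.QS

open Vale.Agent.P046 Vale.Agent.P046.LB Vale.Agent.P046.Lv

variable {n : ℕ}

/-- the weight of a graph in the binomial random graph -/
noncomputable def wt (p : ℝ) (G : SimpleGraph (Fin n)) : ℝ :=
  p ^ numEdges G * (1 - p) ^ (n.choose 2 - numEdges G)

lemma wt_nonneg (p : ℝ) (hp : 0 ≤ p) (hp1 : p ≤ 1) (G : SimpleGraph (Fin n)) : 0 ≤ wt p G := by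
  have : 0 ≤ 1 - p := by linarith
  unfold wt
  positivity

/-- sums over graphs are sums over sets of edges -/
lemma sum_graphs (f : Finset (Sym2 (Fin n)) → ℝ) :
    ∑ G : SimpleGraph (Fin n), f G.edgeFinset =
      ∑ S ∈ (⊤ : SimpleGraph (Fin n)).edgeFinset.powerset, f S := by
  have hmem : ∀ (G : SimpleGraph (Fin n)) (e : Sym2 (Fin n)), e ∈ G.edgeFinset ↔ e ∈ G.edgeSet :=
    fun G e => SimpleGraph.mem_edgeFinset
  have hE : ∀ S ∈ (⊤ : SimpleGraph (Fin n)).edgeFinset.powerset, ∀ e,
      e ∈ (SimpleGraph.fromEdgeSet (S : Set (Sym2 (Fin n)))).edgeSet ↔ e ∈ S := by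
    intro S hS e
    rw [Finset.mem_powerset] at hS
    rw [SimpleGraph.edgeSet_fromEdgeSet]
    constructor
    · rintro ⟨h, -⟩
      exact h
    · intro h
      refine ⟨h, ?_⟩
      have h2 := hS h
      rw [SimpleGraph.mem_edgeFinset] at h2
      exact SimpleGraph.not_isDiag_of_mem_edgeSet _ h2
  refine Finset.sum_bij' (fun G _ => G.edgeFinset)
    (fun S _ => SimpleGraph.fromEdgeSet (S : Set (Sym2 (Fin n)))) ?_ ?_ ?_ ?_ ?_
  · intro G _
    rw [Finset.mem_powerset]
    exact SimpleGraph.edgeFinset_mono le_top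
  · intro S _
    exact Finset.mem_univ _
  · intro G _
    rw [SimpleGraph.coe_edgeFinset, SimpleGraph.fromEdgeSet_edgeSet]
  · intro S hS
    ext e
    exact (hmem (SimpleGraph.fromEdgeSet (S : Set (Sym2 (Fin n)))) e).trans (hE S hS e)
  · intro G _
    rfl

lemma card_top : (⊤ : SimpleGraph (Fin n)).edgeFinset.card = n.choose 2 := by
  rw [SimpleGraph.card_edgeFinset_top_eq_card_choose_two, Fintype.card_fin]

/-- the product formula -/
lemma sum_prod (f g : Sym2 (Fin n) → ℝ) :
    ∑ G : SimpleGraph (Fin n), (∏ e ∈ G.edgeFinset, f e) *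
      ∏ e ∈ (⊤ : SimpleGraph (Fin n)).edgeFinset \ G.edgeFinset, g e =
      ∏ e ∈ (⊤ : SimpleGraph (Fin n)).edgeFinset, (f e + g e) := by
  rw [Finset.prod_add]
  exact sum_graphs (fun S => (∏ e ∈ S, f e) *
    ∏ e ∈ (⊤ : SimpleGraph (Fin n)).edgeFinset \ S, g e)

/-- the probability that all edges of `A` are present -/
lemma sum_incl (p : ℝ) (A : Finset (Sym2 (Fin n)))
    (hA : A ⊆ (⊤ : SimpleGraph (Fin n)).edgeFinset) :
    ∑ G : SimpleGraph (Fin n), wt p G * (if A ⊆ G.edgeFinset then 1 else 0) = p ^ A.card := by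
  have h1 := sum_prod (n := n) (fun _ => p) (fun e => if e ∈ A then 0 else 1 - p)
  have h2 : ∏ e ∈ (⊤ : SimpleGraph (Fin n)).edgeFinset, (p + if e ∈ A then 0 else 1 - p) =
      p ^ A.card := by
    rw [← Finset.prod_sdiff hA]
    have e1 : ∏ e ∈ (⊤ : SimpleGraph (Fin n)).edgeFinset \ A, (p + if e ∈ A then 0 else 1 - p) =
        1 := by
      apply Finset.prod_eq_one
      intro e he
      rw [if_neg (Finset.mem_sdiff.mp he).2]
      ring
    have e2 : ∏ e ∈ A, (p + if e ∈ A then 0 else 1 - p) = ∏ _e ∈ A, p := by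
      apply Finset.prod_congr rfl
      intro e he
      rw [if_pos he, add_zero]
    rw [e1, e2, one_mul, Finset.prod_const]
  rw [h2] at h1
  rw [← h1]
  refine Finset.sum_congr rfl fun G _ => ?_
  have hG : G.edgeFinset ⊆ (⊤ : SimpleGraph (Fin n)).edgeFinset :=
    SimpleGraph.edgeFinset_mono le_top
  rw [Finset.prod_const]
  by_cases h : A ⊆ G.edgeFinset
  · rw [if_pos h, mul_one]
    have e3 : ∏ e ∈ (⊤ : SimpleGraph (Fin n)).edgeFinset \ G.edgeFinset,
        (if e ∈ A then (0:ℝ) else 1 - p) =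
        ∏ _e ∈ (⊤ : SimpleGraph (Fin n)).edgeFinset \ G.edgeFinset, (1 - p) := by
      apply Finset.prod_congr rfl
      intro e he
      rw [if_neg (fun h3 => (Finset.mem_sdiff.mp he).2 (h h3))]
    rw [e3, Finset.prod_const, Finset.card_sdiff_of_subset hG, card_top]
    rfl
  · rw [if_neg h, mul_zero]
    rw [Finset.not_subset] at h
    obtain ⟨e, he1, he2⟩ := h
    have e4 : ∏ e ∈ (⊤ : SimpleGraph (Fin n)).edgeFinset \ G.edgeFinset,
        (if e ∈ A then (0:ℝ) else 1 - p) = 0 :=
      Finset.prod_eq_zero (Finset.mem_sdiff.mpr ⟨hA he1, he2⟩) (if_pos he1)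
    rw [e4, mul_zero]

lemma sum_wt (p : ℝ) : ∑ G : SimpleGraph (Fin n), wt p G = 1 := by
  have := sum_incl (n := n) p ∅ (Finset.empty_subset _)
  simpa using this

/-- generating function of the number of edges -/
lemma gen_edges (p l : ℝ) : ∑ G : SimpleGraph (Fin n), wt p G * Real.exp (l * numEdges G) =
    (1 + p * (Real.exp l - 1)) ^ (n.choose 2) := by
  have h1 := sum_prod (n := n) (fun _ => p * Real.exp l) (fun _ => 1 - p)
  rw [Finset.prod_const, card_top] at h1
  have e1 : p * Real.exp l + (1 - p) = 1 + p * (Real.exp l - 1) := by ring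
  rw [e1] at h1
  rw [← h1]
  refine Finset.sum_congr rfl fun G _ => ?_
  have hG : G.edgeFinset ⊆ (⊤ : SimpleGraph (Fin n)).edgeFinset :=
    SimpleGraph.edgeFinset_mono le_top
  rw [Finset.prod_const, Finset.prod_const, Finset.card_sdiff_of_subset hG, card_top]
  have e2 : Real.exp (l * numEdges G) = Real.exp l ^ G.edgeFinset.card := by
    rw [mul_comm, Real.exp_nat_mul]
    rfl
  rw [e2]
  unfold wt
  change p ^ G.edgeFinset.card * (1 - p) ^ (n.choose 2 - G.edgeFinset.card) * _ = _
  rw [mul_pow]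
  ring

/-- the edges from `u` and `v` to the vertices of `X` -/
noncomputable def cherry (u v : Fin n) (X : Finset (Fin n)) : Finset (Sym2 (Fin n)) :=
  X.image (fun w => s(u, w)) ∪ X.image (fun w => s(v, w))

lemma cherry_card (u v : Fin n) (huv : u ≠ v) (X : Finset (Fin n)) (hu : u ∉ X) (hv : v ∉ X) :
    (cherry u v X).card = 2 * X.card := by
  unfold cherry
  rw [Finset.card_union_of_disjoint, Finset.card_image_of_injective, Finset.card_image_of_injective]
  · ring
  · intro a b hab
    exact Sym2.congr_right.mp hab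
  · intro a b hab
    exact Sym2.congr_right.mp hab
  · rw [Finset.disjoint_left]
    intro e h1 h2
    rw [Finset.mem_image] at h1 h2
    obtain ⟨a, ha, rfl⟩ := h1
    obtain ⟨b, hb, hab⟩ := h2
    rw [Sym2.eq_iff] at hab
    rcases hab with ⟨h3, -⟩ | ⟨h3, h4⟩
    · exact huv h3.symm
    · subst h4
      exact hu hb

lemma cherry_sub_top (u v : Fin n) (X : Finset (Fin n)) (hu : u ∉ X) (hv : v ∉ X) :
    cherry u v X ⊆ (⊤ : SimpleGraph (Fin n)).edgeFinset := by
  intro e he
  unfold cherry at he
  rw [Finset.mem_union, Finset.mem_image, Finset.mem_image] at he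
  rw [SimpleGraph.mem_edgeFinset]
  rcases he with ⟨w, hw, rfl⟩ | ⟨w, hw, rfl⟩
  · rw [SimpleGraph.mem_edgeSet, SimpleGraph.top_adj]
    rintro rfl
    exact hu hw
  · rw [SimpleGraph.mem_edgeSet, SimpleGraph.top_adj]
    rintro rfl
    exact hv hw

lemma cherry_sub (G : SimpleGraph (Fin n)) (u v : Fin n) (X : Finset (Fin n)) :
    cherry u v X ⊆ G.edgeFinset ↔ ∀ w ∈ X, G.Adj u w ∧ G.Adj v w := by
  unfold cherry
  constructor
  · intro h w hw
    constructor
    · have := h (Finset.mem_union_left _ (Finset.mem_image_of_mem _ hw))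
      rwa [SimpleGraph.mem_edgeFinset, SimpleGraph.mem_edgeSet] at this
    · have := h (Finset.mem_union_right _ (Finset.mem_image_of_mem _ hw))
      rwa [SimpleGraph.mem_edgeFinset, SimpleGraph.mem_edgeSet] at this
  · intro h e he
    rw [Finset.mem_union, Finset.mem_image, Finset.mem_image] at he
    rw [SimpleGraph.mem_edgeFinset]
    rcases he with ⟨w, hw, rfl⟩ | ⟨w, hw, rfl⟩
    · exact (h w hw).1
    · exact (h w hw).2

/-- generating function of a codegree -/
lemma gen_codeg (p l : ℝ) (u v : Fin n) (huv : u ≠ v) :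
    ∑ G : SimpleGraph (Fin n), wt p G * Real.exp (l * codeg G u v) =
      (1 + p ^ 2 * (Real.exp l - 1)) ^ (n - 2) := by
  obtain ⟨W, hW⟩ : ∃ W : Finset (Fin n), W = univ \ {u, v} := ⟨_, rfl⟩
  have hWc : W.card = n - 2 := by
    rw [hW, Finset.card_sdiff_of_subset (Finset.subset_univ _), Finset.card_univ, Fintype.card_fin,
      Finset.card_pair huv]
  have hu : u ∉ W := by rw [hW]; simp
  have hv : v ∉ W := by rw [hW]; simp
  have key : ∀ G : SimpleGraph (Fin n), Real.exp (l * codeg G u v) =
      ∑ X ∈ W.powerset, (Real.exp l - 1) ^ X.card * (if cherry u v X ⊆ G.edgeFinset then 1 else 0) := by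
    intro G
    have h1 : codeg G u v = (W.filter fun w => G.Adj u w ∧ G.Adj v w).card := by
      unfold codeg
      congr 1
      ext w
      rw [Finset.mem_filter, Finset.mem_filter, hW]
      constructor
      · rintro ⟨-, h⟩
        refine ⟨?_, h⟩
        simp only [Finset.mem_sdiff, Finset.mem_univ, true_and, Finset.mem_insert,
          Finset.mem_singleton, not_or]
        exact ⟨(G.ne_of_adj h.1).symm, (G.ne_of_adj h.2).symm⟩
      · rintro ⟨-, h⟩
        exact ⟨Finset.mem_univ _, h⟩
    have h2 : Real.exp (l * codeg G u v) =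
        ∏ w ∈ W, (1 + (Real.exp l - 1) * (if G.Adj u w ∧ G.Adj v w then 1 else 0)) := by
      rw [h1, mul_comm, Real.exp_nat_mul, ← Finset.prod_const, Finset.prod_filter]
      refine Finset.prod_congr rfl fun w _ => ?_
      split_ifs
      · ring
      · ring
    rw [h2, Finset.prod_one_add]
    refine Finset.sum_congr rfl fun X _ => ?_
    rw [Finset.prod_mul_distrib, Finset.prod_const]
    congr 1
    by_cases h : cherry u v X ⊆ G.edgeFinset
    · rw [if_pos h]
      rw [cherry_sub] at h
      apply Finset.prod_eq_one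
      intro w hw
      rw [if_pos (h w hw)]
    · rw [if_neg h]
      rw [cherry_sub] at h
      push Not at h
      obtain ⟨w, hw, hw2⟩ := h
      apply Finset.prod_eq_zero hw
      rw [if_neg (fun h3 => hw2 h3.1 h3.2)]
  have e1 : ∑ G : SimpleGraph (Fin n), wt p G * Real.exp (l * codeg G u v) =
      ∑ X ∈ W.powerset, (Real.exp l - 1) ^ X.card * (p ^ 2) ^ X.card := by
    calc ∑ G : SimpleGraph (Fin n), wt p G * Real.exp (l * codeg G u v)
        = ∑ G : SimpleGraph (Fin n), ∑ X ∈ W.powerset, (Real.exp l - 1) ^ X.card *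
            (wt p G * (if cherry u v X ⊆ G.edgeFinset then 1 else 0)) := by
          refine Finset.sum_congr rfl fun G _ => ?_
          rw [key G, Finset.mul_sum]
          refine Finset.sum_congr rfl fun X _ => ?_
          ring
      _ = ∑ X ∈ W.powerset, (Real.exp l - 1) ^ X.card * (p ^ 2) ^ X.card := by
          rw [Finset.sum_comm]
          refine Finset.sum_congr rfl fun X hX => ?_
          rw [Finset.mem_powerset] at hX
          rw [← Finset.mul_sum, sum_incl p _ (cherry_sub_top u v X (fun h => hu (hX h))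
            (fun h => hv (hX h))), cherry_card u v huv X (fun h => hu (hX h)) (fun h => hv (hX h)),
            pow_mul]
  rw [e1, ← hWc, ← Finset.prod_const, Finset.prod_one_add]
  refine Finset.sum_congr rfl fun X _ => ?_
  rw [Finset.prod_const, ← mul_pow]
  congr 1
  ring

end Vale.Agent.P046.QS
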