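import Vale.Agent.P046.H621.Q6

/-!
The process started at the binomial random graph.
-/

set_option autoImplicit false

open scoped Classical
open Finset

namespace Vale.Agent.P046.QS

open Vale.Agent.P046 Vale.Agent.P046.LB Vale.Agent.P046.Lv

variable {n : ℕ}

/-- the exponential moment of a sum of `m` indicators of mean `q` -/
lemma gen_le (m : ℕ) (q l : ℝ) (hq0 : 0 ≤ q) (hq1 : q ≤ 1) (hl : |l| ≤ 1) :
    (1 + q * (Real.exp l - 1)) ^ m ≤ Real.exp (l * (m * q) + m * l ^ 2) := by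
  have h1 := Real.abs_exp_sub_one_sub_id_le hl
  have h2 : Real.exp l - 1 ≤ l + l ^ 2 := by
    have := (abs_le.mp h1).2
    linarith
  have h3 : 1 + q * (Real.exp l - 1) ≤ Real.exp (q * l + l ^ 2) := by
    have h4 : q * (Real.exp l - 1) ≤ q * (l + l ^ 2) := mul_le_mul_of_nonneg_left h2 hq0
    have h5 : q * l ^ 2 ≤ 1 * l ^ 2 := mul_le_mul_of_nonneg_right hq1 (sq_nonneg l)
    have h6 := Real.add_one_le_exp (q * l + l ^ 2)
    linarith
  have h7 : 0 ≤ 1 + q * (Real.exp l - 1) := by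
    have := Real.exp_pos l
    nlinarith
  calc (1 + q * (Real.exp l - 1)) ^ m ≤ Real.exp (q * l + l ^ 2) ^ m := pow_le_pow_left₀ h7 h3 m
    _ = Real.exp (l * (m * q) + m * l ^ 2) := by
        rw [← Real.exp_nat_mul]
        congr 1
        ring

/-- a tail bound -/
lemma tail (p : ℝ) (hp0 : 0 ≤ p) (hp1 : p ≤ 1) (h : SimpleGraph (Fin n) → ℝ) (m : ℕ) (q t : ℝ)
    (hq0 : 0 ≤ q) (hq1 : q ≤ 1) (hm : 0 < m) (ht0 : 0 ≤ t) (ht : t ≤ 2 * m)
    (hgen : ∀ l : ℝ, ∑ G : SimpleGraph (Fin n), wt p G * Real.exp (l * h G) =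
      (1 + q * (Real.exp l - 1)) ^ m) :
    ∑ G : SimpleGraph (Fin n), wt p G * (if t < |h G - m * q| then 1 else 0) ≤
      2 * Real.exp (-(t ^ 2 / (4 * m))) := by
  have hm0 : (0:ℝ) < m := by exact_mod_cast hm
  obtain ⟨l, hl⟩ : ∃ l : ℝ, l = t / (2 * m) := ⟨_, rfl⟩
  have hl0 : 0 ≤ l := by rw [hl]; positivity
  have hl1 : l ≤ 1 := by rw [hl, div_le_one (by positivity)]; exact ht
  have hpt : ∀ G : SimpleGraph (Fin n), wt p G * (if t < |h G - m * q| then 1 else 0) ≤
      Real.exp (-(l * t) - l * (m * q)) * (wt p G * Real.exp (l * h G)) +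
      Real.exp (-(l * t) + l * (m * q)) * (wt p G * Real.exp (-l * h G)) := by
    intro G
    have hw := wt_nonneg p hp0 hp1 G
    have e1 : Real.exp (-(l * t) - l * (m * q)) * (wt p G * Real.exp (l * h G)) +
        Real.exp (-(l * t) + l * (m * q)) * (wt p G * Real.exp (-l * h G)) =
        wt p G * (Real.exp (l * (h G - m * q - t)) + Real.exp (l * (-(h G - m * q) - t))) := by
      have a1 : Real.exp (l * (h G - m * q - t)) =
          Real.exp (-(l * t) - l * (m * q)) * Real.exp (l * h G) := by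
        rw [← Real.exp_add]; congr 1; ring
      have a2 : Real.exp (l * (-(h G - m * q) - t)) =
          Real.exp (-(l * t) + l * (m * q)) * Real.exp (-l * h G) := by
        rw [← Real.exp_add]; congr 1; ring
      rw [a1, a2]
      ring
    rw [e1]
    apply mul_le_mul_of_nonneg_left _ hw
    split_ifs with hlt
    · rcases le_total 0 (h G - m * q) with h1 | h1
      · rw [abs_of_nonneg h1] at hlt
        have h2 : 1 ≤ Real.exp (l * (h G - m * q - t)) := by
          apply Real.one_le_exp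
          exact mul_nonneg hl0 (by linarith)
        have h3 := Real.exp_pos (l * (-(h G - m * q) - t))
        linarith
      · rw [abs_of_nonpos h1] at hlt
        have h2 : 1 ≤ Real.exp (l * (-(h G - m * q) - t)) := by
          apply Real.one_le_exp
          exact mul_nonneg hl0 (by linarith)
        have h3 := Real.exp_pos (l * (h G - m * q - t))
        linarith
    · positivity
  refine (Finset.sum_le_sum fun G _ => hpt G).trans ?_
  rw [Finset.sum_add_distrib, ← Finset.mul_sum, ← Finset.mul_sum, hgen, hgen]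
  have b1 := gen_le m q l hq0 hq1 (abs_le.mpr ⟨by linarith, hl1⟩)
  have b2 := gen_le m q (-l) hq0 hq1 (abs_le.mpr ⟨by linarith, by linarith⟩)
  have c1 := mul_le_mul_of_nonneg_left b1 (Real.exp_pos (-(l * t) - l * (m * q))).le
  have c2 := mul_le_mul_of_nonneg_left b2 (Real.exp_pos (-(l * t) + l * (m * q))).le
  rw [← Real.exp_add] at c1 c2
  have e2 : -(l * t) - l * (m * q) + (l * (m * q) + m * l ^ 2) = -(t ^ 2 / (4 * m)) := by
    rw [hl]; field_simp; ring
  have e3 : -(l * t) + l * (m * q) + (-l * (m * q) + m * (-l) ^ 2) = -(t ^ 2 / (4 * m)) := by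
    rw [hl]; field_simp; ring
  rw [e2] at c1
  rw [e3] at c2
  linarith

/-- a graph with all deviations small satisfies the hypotheses of `quasirandom` -/
lemma good_gnp (p y : ℝ) (hp0 : 0 < p) (hp1 : p ≤ 1) (hy : 8 ≤ y) (hyn : y ≤ 2 * p * n)
    (hn : 4 ≤ n) (G : SimpleGraph (Fin n))
    (he : |(numEdges G : ℝ) - (n.choose 2 : ℕ) * p| ≤ n * y / 16)
    (hc : ∀ u v, u ≠ v → |(codeg G u v : ℝ) - (n - 2 : ℕ) * p ^ 2| ≤ y / 4) :
    p / 4 * (n:ℝ) ^ 2 ≤ numEdges G ∧
    ∀ u v, u ≠ v → |((G.commonNeighbors u v).ncard : ℝ) -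
      4 * (numEdges G : ℝ) ^ 2 / (n:ℝ) ^ 3| ≤ y := by
  have hn4 : (4:ℝ) ≤ n := by exact_mod_cast hn
  have hn0 : (0:ℝ) < n := by linarith
  rw [choose_two_real] at he
  obtain ⟨e, hee⟩ : ∃ e : ℝ, e = (numEdges G : ℝ) := ⟨_, rfl⟩
  have he2 : 2 * e ≤ (n:ℝ) ^ 2 := by rw [hee]; exact Vale.Agent.P046.C.numEdges_le G
  have he0 : 0 ≤ e := by rw [hee]; positivity
  rw [← hee] at he ⊢
  have hpn : p * n ≤ n := by nlinarith
  have hpn0 : 0 ≤ p * n := by positivity
  have habs := abs_le.mp he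
  refine ⟨?_, ?_⟩
  · have h1 : n * y / 16 ≤ n * (2 * p * n) / 16 := by
      apply div_le_div_of_nonneg_right _ (by norm_num)
      exact mul_le_mul_of_nonneg_left hyn hn0.le
    have h2 : 4 * (p * n) ≤ n * (p * n) := mul_le_mul_of_nonneg_right hn4 hpn0
    nlinarith only [h1, h2, habs.1]
  · intro u v huv
    rw [codeg_eq_ncard]
    have h1 := abs_le.mp (hc u v huv)
    rw [Nat.cast_sub (by omega)] at h1
    push_cast at h1
    have hd : |e - p * (n:ℝ) ^ 2 / 2| ≤ n * y / 16 + n / 2 := by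
      rw [abs_le]
      constructor
      · linarith [habs.1]
      · linarith [habs.2]
    have h2 : |4 * e ^ 2 / (n:ℝ) ^ 3 - p ^ 2 * n| ≤ y / 4 + 2 := by
      have e1 : 4 * e ^ 2 / (n:ℝ) ^ 3 - p ^ 2 * n =
          4 / (n:ℝ) ^ 3 * ((e - p * (n:ℝ) ^ 2 / 2) * (e + p * (n:ℝ) ^ 2 / 2)) := by
        field_simp
        ring
      have h3 : |e + p * (n:ℝ) ^ 2 / 2| ≤ (n:ℝ) ^ 2 := by
        rw [abs_of_nonneg (by positivity)]
        have : p * (n:ℝ) ^ 2 ≤ 1 * (n:ℝ) ^ 2 := mul_le_mul_of_nonneg_right hp1 (by positivity)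
        linarith
      rw [e1, abs_mul, abs_mul, abs_of_nonneg (by positivity : 0 ≤ 4 / (n:ℝ) ^ 3)]
      calc 4 / (n:ℝ) ^ 3 * (|e - p * (n:ℝ) ^ 2 / 2| * |e + p * (n:ℝ) ^ 2 / 2|)
          ≤ 4 / (n:ℝ) ^ 3 * ((n * y / 16 + n / 2) * (n:ℝ) ^ 2) := by
            apply mul_le_mul_of_nonneg_left _ (by positivity)
            exact mul_le_mul hd h3 (abs_nonneg _) (by positivity)
        _ = y / 4 + 2 := by field_simp; ring
    have h4 := abs_le.mp h2
    have hp2 : p ^ 2 ≤ 1 := pow_le_one₀ hp0.le hp1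
    have hp20 : 0 ≤ p ^ 2 := by positivity
    rw [abs_le]
    constructor
    · nlinarith only [h1.1, h4.2, hp2, hy, hp20]
    · nlinarith only [h1.2, h4.1, hp2, hy, hp20]

/-- crude bound for the deviation -/
lemma dev_crude (hn : 1 ≤ n) (G : SimpleGraph (Fin n)) :
    |(numEdges G : ℝ) / (n : ℝ) ^ (3 / 2 : ℝ) - 1 / (2 * √2)| ≤ n := by
  have hn1 : (1:ℝ) ≤ n := by exact_mod_cast hn
  have hn0 : (0:ℝ) < n := by linarith
  have hs : 0 < (n : ℝ) ^ (3 / 2 : ℝ) := Real.rpow_pos_of_pos hn0 _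
  have hsn : (n:ℝ) ≤ (n:ℝ) ^ (3 / 2 : ℝ) := by
    calc (n:ℝ) = (n:ℝ) ^ (1:ℝ) := (Real.rpow_one _).symm
      _ ≤ (n:ℝ) ^ (3 / 2 : ℝ) := Real.rpow_le_rpow_of_exponent_le hn1 (by norm_num)
  have h1 : (numEdges G : ℝ) / (n : ℝ) ^ (3 / 2 : ℝ) ≤ n := by
    rw [div_le_iff₀ hs]
    have h2 := Vale.Agent.P046.C.numEdges_le G
    have h3 : (n:ℝ) * n ≤ n * (n : ℝ) ^ (3 / 2 : ℝ) := mul_le_mul_of_nonneg_left hsn hn0.le
    have h4 : (0:ℝ) ≤ numEdges G := by positivity
    nlinarith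
  have h2 : 0 ≤ (numEdges G : ℝ) / (n : ℝ) ^ (3 / 2 : ℝ) := by positivity
  have h3 : (0:ℝ) ≤ 1 / (2 * √2) := by positivity
  have h4 : 1 / (2 * √2) ≤ 1 := by
    rw [div_le_one (by positivity)]
    have : (1:ℝ) ≤ √2 := Real.one_le_sqrt.mpr (by norm_num)
    linarith
  rw [abs_le]
  constructor <;> linarith

/-- the mean deviation from a given start -/
noncomputable def md (G₀ : SimpleGraph (Fin n)) : ℝ :=
  ∑ G, (run (n.choose 2) G₀ G).toReal *
    |(numEdges G : ℝ) / (n : ℝ) ^ (3 / 2 : ℝ) - 1 / (2 * √2)|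

lemma md_nonneg (G₀ : SimpleGraph (Fin n)) : 0 ≤ md G₀ :=
  Finset.sum_nonneg fun _ _ => mul_nonneg ENNReal.toReal_nonneg (abs_nonneg _)

lemma md_crude (hn : 1 ≤ n) (G₀ : SimpleGraph (Fin n)) : md G₀ ≤ n := by
  have h1 : md G₀ ≤ ∑ G, (run (n.choose 2) G₀ G).toReal * (n:ℝ) :=
    Finset.sum_le_sum fun G _ =>
      mul_le_mul_of_nonneg_left (dev_crude hn G) ENNReal.toReal_nonneg
  have h2 := expect_const (run (n.choose 2) G₀) (n:ℝ)
  unfold expect at h2
  rw [h2] at h1
  exact h1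

/-- the average over the binomial random graph -/
lemma gnp_bound (p y ε : ℝ) (hp0 : 0 < p) (hp1 : p ≤ 1) (hy : 8 ≤ y) (hyn : y ≤ 2 * p * n)
    (hn : 4 ≤ n) (hε : 0 ≤ ε)
    (hgood : ∀ G₀ : SimpleGraph (Fin n), p / 4 * (n:ℝ) ^ 2 ≤ numEdges G₀ →
      (∀ u v, u ≠ v → |((G₀.commonNeighbors u v).ncard : ℝ) -
        4 * (numEdges G₀ : ℝ) ^ 2 / (n:ℝ) ^ 3| ≤ y) → md G₀ ≤ ε) :
    ∑ G₀ : SimpleGraph (Fin n), wt p G₀ * md G₀ ≤
      ε + n * (2 * Real.exp (-((n * y / 16) ^ 2 / (4 * (n.choose 2 : ℕ)))) +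
        (n:ℝ) ^ 2 * (2 * Real.exp (-((y / 4) ^ 2 / (4 * (n - 2 : ℕ)))))) := by
  have hn4 : (4:ℝ) ≤ n := by exact_mod_cast hn
  have hn0 : (0:ℝ) < n := by linarith
  have hy2n : y ≤ 2 * n := by
    have : p * n ≤ 1 * n := mul_le_mul_of_nonneg_right hp1 hn0.le
    linarith
  obtain ⟨Q, hQ⟩ : ∃ Q : SimpleGraph (Fin n) → ℝ, Q = fun G =>
    (if n * y / 16 < |(numEdges G : ℝ) - (n.choose 2 : ℕ) * p| then 1 else 0) +
      ∑ u, ∑ v, if u = v then 0 else
        (if y / 4 < |(codeg G u v : ℝ) - (n - 2 : ℕ) * p ^ 2| then 1 else 0) := ⟨_, rfl⟩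
  have hQ0 : ∀ G, 0 ≤ Q G := by
    intro G
    rw [hQ]
    show (0:ℝ) ≤ (if _ then 1 else 0) + _
    have a1 : (0:ℝ) ≤ (if n * y / 16 < |(numEdges G : ℝ) - (n.choose 2 : ℕ) * p| then 1 else 0) := by
      split_ifs <;> norm_num
    have a2 : (0:ℝ) ≤ ∑ u, ∑ v, if u = v then 0 else
        (if y / 4 < |(codeg G u v : ℝ) - (n - 2 : ℕ) * p ^ 2| then 1 else 0) := by
      refine Finset.sum_nonneg fun u _ => Finset.sum_nonneg fun v _ => ?_
      split_ifs <;> norm_num
    exact add_nonneg a1 a2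
  have hpt : ∀ G : SimpleGraph (Fin n), md G ≤ ε + n * Q G := by
    intro G
    by_cases hg : (|(numEdges G : ℝ) - (n.choose 2 : ℕ) * p| ≤ n * y / 16) ∧
        ∀ u v, u ≠ v → |(codeg G u v : ℝ) - (n - 2 : ℕ) * p ^ 2| ≤ y / 4
    · obtain ⟨g1, g2⟩ := good_gnp p y hp0 hp1 hy hyn hn G hg.1 hg.2
      have := hgood G g1 g2
      have h2 : 0 ≤ (n:ℝ) * Q G := mul_nonneg hn0.le (hQ0 G)
      linarith
    · have h1 : 1 ≤ Q G := by
        rw [hQ]
        show (1:ℝ) ≤ (if n * y / 16 < |(numEdges G : ℝ) - (n.choose 2 : ℕ) * p| then 1 else 0) +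
          ∑ u, ∑ v, if u = v then 0 else
            (if y / 4 < |(codeg G u v : ℝ) - (n - 2 : ℕ) * p ^ 2| then 1 else 0)
        rw [not_and_or] at hg
        have a2 : ∀ u v : Fin n, (0:ℝ) ≤ if u = v then 0 else
            (if y / 4 < |(codeg G u v : ℝ) - (n - 2 : ℕ) * p ^ 2| then 1 else 0) := by
          intro u v
          split_ifs <;> norm_num
        rcases hg with hg | hg
        · push Not at hg
          rw [if_pos hg]
          have := Finset.sum_nonneg fun u (_ : u ∈ univ) =>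
            Finset.sum_nonneg fun v (_ : v ∈ univ) => a2 u v
          linarith
        · push Not at hg
          obtain ⟨u, v, huv, h3⟩ := hg
          have h4 : (1:ℝ) = if u = v then 0 else
              (if y / 4 < |(codeg G u v : ℝ) - (n - 2 : ℕ) * p ^ 2| then 1 else 0) := by
            rw [if_neg huv, if_pos h3]
          have h5 := Finset.single_le_sum (f := fun v' => if u = v' then (0:ℝ) else
            (if y / 4 < |(codeg G u v' : ℝ) - (n - 2 : ℕ) * p ^ 2| then 1 else 0))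
            (fun v' _ => a2 u v') (Finset.mem_univ v)
          have h6 := Finset.single_le_sum (f := fun u' => ∑ v', if u' = v' then (0:ℝ) else
            (if y / 4 < |(codeg G u' v' : ℝ) - (n - 2 : ℕ) * p ^ 2| then 1 else 0))
            (fun u' _ => Finset.sum_nonneg fun v' _ => a2 u' v') (Finset.mem_univ u)
          have h7 : (0:ℝ) ≤
              (if n * y / 16 < |(numEdges G : ℝ) - (n.choose 2 : ℕ) * p| then 1 else 0) := by
            split_ifs <;> norm_num
          beta_reduce at h5 h6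
          linarith
      have h2 := md_crude (by omega : 1 ≤ n) G
      have h3 : (n:ℝ) * 1 ≤ n * Q G := mul_le_mul_of_nonneg_left h1 hn0.le
      linarith
  have hsum : ∑ G₀ : SimpleGraph (Fin n), wt p G₀ * md G₀ ≤
      ε + n * ∑ G : SimpleGraph (Fin n), wt p G * Q G := by
    calc ∑ G₀ : SimpleGraph (Fin n), wt p G₀ * md G₀
        ≤ ∑ G₀ : SimpleGraph (Fin n), (ε * wt p G₀ + n * (wt p G₀ * Q G₀)) := by
          refine Finset.sum_le_sum fun G _ => ?_
          have := mul_le_mul_of_nonneg_left (hpt G) (wt_nonneg p hp0.le hp1 G)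
          linarith
      _ = ε + n * ∑ G : SimpleGraph (Fin n), wt p G * Q G := by
          rw [Finset.sum_add_distrib, ← Finset.mul_sum, ← Finset.mul_sum, sum_wt, mul_one]
  refine hsum.trans ?_
  have hN : 0 < n.choose 2 := Nat.choose_pos (by omega)
  have t1 := tail (n := n) p hp0.le hp1 (fun G => (numEdges G : ℝ)) (n.choose 2) p (n * y / 16)
    hp0.le hp1 hN (by positivity) (by
      rw [choose_two_real]
      have h1 : n * y ≤ n * (2 * n) := mul_le_mul_of_nonneg_left hy2n hn0.le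
      nlinarith) (fun l => gen_edges p l)
  have t2 : ∀ u v : Fin n, u ≠ v → ∑ G : SimpleGraph (Fin n), wt p G *
      (if y / 4 < |(codeg G u v : ℝ) - (n - 2 : ℕ) * p ^ 2| then 1 else 0) ≤
        2 * Real.exp (-((y / 4) ^ 2 / (4 * (n - 2 : ℕ)))) := by
    intro u v huv
    refine tail (n := n) p hp0.le hp1 (fun G => (codeg G u v : ℝ)) (n - 2) (p ^ 2) (y / 4)
      (by positivity) (pow_le_one₀ hp0.le hp1) (by omega) (by positivity) ?_
      (fun l => gen_codeg p l u v huv)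
    rw [Nat.cast_sub (by omega)]
    push_cast
    linarith
  have hQs : ∑ G : SimpleGraph (Fin n), wt p G * Q G ≤
      2 * Real.exp (-((n * y / 16) ^ 2 / (4 * (n.choose 2 : ℕ)))) +
        (n:ℝ) ^ 2 * (2 * Real.exp (-((y / 4) ^ 2 / (4 * (n - 2 : ℕ))))) := by
    have e1 : ∑ G : SimpleGraph (Fin n), wt p G * Q G =
        ∑ G : SimpleGraph (Fin n), wt p G *
          (if n * y / 16 < |(numEdges G : ℝ) - (n.choose 2 : ℕ) * p| then 1 else 0) +
        ∑ u : Fin n, ∑ v : Fin n, ∑ G : SimpleGraph (Fin n), wt p G * (if u = v then 0 else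
          (if y / 4 < |(codeg G u v : ℝ) - (n - 2 : ℕ) * p ^ 2| then 1 else 0)) := by
      have e2 : ∑ u : Fin n, ∑ v : Fin n, ∑ G : SimpleGraph (Fin n), wt p G *
          (if u = v then 0 else
            (if y / 4 < |(codeg G u v : ℝ) - (n - 2 : ℕ) * p ^ 2| then 1 else 0)) =
          ∑ G : SimpleGraph (Fin n), wt p G * ∑ u : Fin n, ∑ v : Fin n, (if u = v then 0 else
            (if y / 4 < |(codeg G u v : ℝ) - (n - 2 : ℕ) * p ^ 2| then 1 else 0)) := by
        have : ∀ u : Fin n, ∑ v : Fin n, ∑ G : SimpleGraph (Fin n), wt p G *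
            (if u = v then 0 else
              (if y / 4 < |(codeg G u v : ℝ) - (n - 2 : ℕ) * p ^ 2| then 1 else 0)) =
            ∑ G : SimpleGraph (Fin n), ∑ v : Fin n, wt p G *
            (if u = v then 0 else
              (if y / 4 < |(codeg G u v : ℝ) - (n - 2 : ℕ) * p ^ 2| then 1 else 0)) :=
          fun u => Finset.sum_comm
        simp_rw [this]
        rw [Finset.sum_comm]
        refine Finset.sum_congr rfl fun G _ => ?_
        rw [Finset.mul_sum]
        refine Finset.sum_congr rfl fun u _ => ?_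
        rw [Finset.mul_sum]
      rw [e2, ← Finset.sum_add_distrib]
      refine Finset.sum_congr rfl fun G _ => ?_
      rw [hQ]
      ring
    rw [e1]
    refine add_le_add t1 ?_
    have h3 : ∀ u v : Fin n, ∑ G : SimpleGraph (Fin n), wt p G * (if u = v then 0 else
          (if y / 4 < |(codeg G u v : ℝ) - (n - 2 : ℕ) * p ^ 2| then 1 else 0)) ≤
        2 * Real.exp (-((y / 4) ^ 2 / (4 * (n - 2 : ℕ)))) := by
      intro u v
      by_cases huv : u = v
      · simp only [if_pos huv, mul_zero, Finset.sum_const_zero]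
        positivity
      · simp only [if_neg huv]
        exact t2 u v huv
    refine (Finset.sum_le_sum fun u _ => Finset.sum_le_sum fun v _ => h3 u v).trans
      (le_of_eq ?_)
    simp only [Finset.sum_const, Finset.card_univ, Fintype.card_fin, nsmul_eq_mul]
    ring
  have := mul_le_mul_of_nonneg_left hQs hn0.le
  linarith

end Vale.Agent.P046.QS
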