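import Vale.Agent.P046.H621.Q7

/-!
The process started at the binomial random graph: the limit.
-/

set_option autoImplicit false

open scoped Classical
open Finset Filter

namespace Vale.Agent.P046.QS

open Vale.Agent.P046 Vale.Agent.P046.Lv

lemma exp_small (k : ℕ) (c : ℝ) (hc : 0 < c) :
    Tendsto (fun z : ℝ => z ^ k * Real.exp (-(z / c))) atTop (nhds 0) := by
  have h1 := Real.tendsto_pow_mul_exp_neg_atTop_nhds_zero k
  have h2 : Tendsto (fun z : ℝ => z / c) atTop atTop := tendsto_id.atTop_div_const hc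
  have h3 := (h1.comp h2).const_mul (c ^ k)
  rw [mul_zero] at h3
  refine h3.congr fun z => ?_
  show c ^ k * ((z / c) ^ k * Real.exp (-(z / c))) = _
  rw [div_pow, ← mul_assoc, mul_div_cancel₀ _ (by positivity)]

lemma err_small : Tendsto (fun n : ℕ => 4 * ((n:ℝ) ^ 3 *
    Real.exp (-((n:ℝ) ^ (1 / 1200 : ℝ) / 64)))) atTop (nhds 0) := by
  have h1 := exp_small 3600 64 (by norm_num)
  have h2 : Tendsto (fun n : ℕ => (n:ℝ) ^ (1 / 1200 : ℝ)) atTop atTop :=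
    (tendsto_rpow_atTop (by norm_num)).comp tendsto_natCast_atTop_atTop
  have h3 := (h1.comp h2).const_mul 4
  rw [mul_zero] at h3
  refine h3.congr fun n => ?_
  show 4 * (((n:ℝ) ^ (1 / 1200 : ℝ)) ^ 3600 * Real.exp (-((n:ℝ) ^ (1 / 1200 : ℝ) / 64))) = _
  have e1 : ((n:ℝ) ^ (1 / 1200 : ℝ)) ^ 3600 = (n:ℝ) ^ 3 := by
    rw [← Real.rpow_natCast, ← Real.rpow_mul (Nat.cast_nonneg n), ← Real.rpow_natCast]
    norm_num
  rw [e1]

lemma err_bound (n : ℕ) (hn : 8 ≤ n) (y z : ℝ) (hz : 0 ≤ z) (hy : 0 ≤ y) (hyz : y ^ 2 = n * z) :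
    n * (2 * Real.exp (-((n * y / 16) ^ 2 / (4 * (n.choose 2 : ℕ)))) +
        (n:ℝ) ^ 2 * (2 * Real.exp (-((y / 4) ^ 2 / (4 * (n - 2 : ℕ)))))) ≤
      4 * ((n:ℝ) ^ 3 * Real.exp (-(z / 64))) := by
  have hn8 : (8:ℝ) ≤ n := by exact_mod_cast hn
  have hn0 : (0:ℝ) < n := by linarith
  have h1 : z / 64 ≤ (n * y / 16) ^ 2 / (4 * (n.choose 2 : ℕ)) := by
    rw [choose_two_real]
    have hm : 0 < (n:ℝ) - 1 := by linarith
    rw [div_le_div_iff₀ (by norm_num) (by positivity)]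
    have e1 : (n * y / 16) ^ 2 * 64 = (n:ℝ) ^ 2 * (n * z) / 4 := by
      rw [← hyz]; ring
    rw [e1]
    have h2 : 0 ≤ z * (n:ℝ) ^ 2 := by positivity
    have h3 : z * (n:ℝ) ^ 2 * 8 ≤ z * (n:ℝ) ^ 2 * n := mul_le_mul_of_nonneg_left hn8 h2
    have h4 : 0 ≤ z * (n:ℝ) := by positivity
    nlinarith only [h3, h4, h2]
  have h2 : z / 64 ≤ (y / 4) ^ 2 / (4 * (n - 2 : ℕ)) := by
    rw [Nat.cast_sub (by omega)]
    push_cast
    have hm : 0 < (n:ℝ) - 2 := by linarith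
    rw [div_le_div_iff₀ (by norm_num) (by positivity)]
    have e1 : (y / 4) ^ 2 * 64 = 4 * (n * z) := by
      rw [← hyz]; ring
    rw [e1]
    nlinarith only [hz]
  have h3 : Real.exp (-((n * y / 16) ^ 2 / (4 * (n.choose 2 : ℕ)))) ≤ Real.exp (-(z / 64)) :=
    Real.exp_le_exp.mpr (by linarith)
  have h4 : Real.exp (-((y / 4) ^ 2 / (4 * (n - 2 : ℕ)))) ≤ Real.exp (-(z / 64)) :=
    Real.exp_le_exp.mpr (by linarith)
  obtain ⟨a, ha⟩ : ∃ a : ℝ, a = Real.exp (-(z / 64)) := ⟨_, rfl⟩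
  have ha0 : 0 < a := by rw [ha]; exact Real.exp_pos _
  rw [← ha] at h3 h4 ⊢
  calc n * (2 * Real.exp (-((n * y / 16) ^ 2 / (4 * (n.choose 2 : ℕ)))) +
        (n:ℝ) ^ 2 * (2 * Real.exp (-((y / 4) ^ 2 / (4 * (n - 2 : ℕ))))))
      ≤ n * (2 * a + (n:ℝ) ^ 2 * (2 * a)) := by
        apply mul_le_mul_of_nonneg_left _ hn0.le
        apply add_le_add
        · linarith
        · apply mul_le_mul_of_nonneg_left _ (by positivity)
          linarith
    _ ≤ 4 * ((n:ℝ) ^ 3 * a) := by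
        have h5 : (1:ℝ) ≤ (n:ℝ) ^ 2 := one_le_pow₀ (by linarith)
        have h6 : n * a * 1 ≤ n * a * (n:ℝ) ^ 2 :=
          mul_le_mul_of_nonneg_left h5 (by positivity)
        nlinarith only [h6]

/-- **The process started at the binomial random graph** of constant density. -/
theorem gnp (p : ℝ) (hp0 : 0 < p) (hp1 : p ≤ 1) :
    Tendsto (fun n : ℕ => ∑ G₀ : SimpleGraph (Fin n),
      p ^ numEdges G₀ * (1 - p) ^ (n.choose 2 - numEdges G₀) *
        ∑ G, (run (n.choose 2) G₀ G).toReal *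
          |(numEdges G : ℝ) / (n : ℝ) ^ (3 / 2 : ℝ) - 1 / (2 * √2)|) atTop (nhds 0) := by
  rw [Metric.tendsto_atTop]
  intro η hη
  obtain ⟨n0, h0⟩ := quasirandom (p / 4) (η / 3) (by positivity) (by positivity)
  obtain ⟨n1, h1⟩ := (Metric.tendsto_atTop.mp err_small) (η / 3) (by positivity)
  -- `y` is large and small compared with `n`
  have hy1 : ∀ᶠ n : ℕ in atTop, 8 ≤ (n:ℝ) ^ (1 / 2 + 1 / 2400 : ℝ) :=
    ((tendsto_rpow_atTop (by norm_num)).comp tendsto_natCast_atTop_atTop).eventually_ge_atTop 8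
  have hy2 : ∀ᶠ n : ℕ in atTop, 1 / (2 * p) ≤ (n:ℝ) ^ (1 / 2 - 1 / 2400 : ℝ) :=
    ((tendsto_rpow_atTop (by norm_num)).comp tendsto_natCast_atTop_atTop).eventually_ge_atTop _
  obtain ⟨n2, h2⟩ := eventually_atTop.mp (hy1.and hy2)
  refine ⟨n0 + n1 + n2 + 8, fun n hn => ?_⟩
  obtain ⟨g1, g2⟩ := h2 n (by omega)
  have hn0 : (0:ℝ) < n := by
    have : 0 < n := by omega
    exact_mod_cast this
  obtain ⟨y, hy⟩ : ∃ y : ℝ, y = (n:ℝ) ^ (1 / 2 + 1 / 2400 : ℝ) := ⟨_, rfl⟩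
  have hy0 : 0 < y := by rw [hy]; exact Real.rpow_pos_of_pos hn0 _
  have hyz : y ^ 2 = n * (n:ℝ) ^ (1 / 1200 : ℝ) := by
    rw [hy, ← Real.rpow_natCast, ← Real.rpow_mul hn0.le]
    nth_rewrite 2 [← Real.rpow_one (n:ℝ)]
    rw [← Real.rpow_add hn0]
    norm_num
  have hyn : y ≤ 2 * p * n := by
    have e1 : y * (n:ℝ) ^ (1 / 2 - 1 / 2400 : ℝ) = n := by
      rw [hy, ← Real.rpow_add hn0]
      norm_num
    rw [div_le_iff₀ (by positivity)] at g2
    calc y = y * 1 := (mul_one _).symm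
      _ ≤ y * ((n:ℝ) ^ (1 / 2 - 1 / 2400 : ℝ) * (2 * p)) := mul_le_mul_of_nonneg_left g2 hy0.le
      _ = (y * (n:ℝ) ^ (1 / 2 - 1 / 2400 : ℝ)) * (2 * p) := by ring
      _ = 2 * p * n := by rw [e1]; ring
  have hb := gnp_bound (n := n) p y (η / 3) hp0 hp1 (by rw [hy]; exact g1) hyn (by omega)
    (by positivity) (fun G₀ he hc => h0 n (by omega) G₀ he (by rw [← hy]; exact hc))
  have he := err_bound n (by omega) y ((n:ℝ) ^ (1 / 1200 : ℝ)) (Real.rpow_nonneg hn0.le _) hy0.le hyz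
  have h3 := h1 n (by omega)
  rw [Real.dist_eq, sub_zero] at h3
  have h4 := (abs_lt.mp h3).2
  have h5 : 0 ≤ ∑ G₀ : SimpleGraph (Fin n), wt p G₀ * md G₀ :=
    Finset.sum_nonneg fun G _ => mul_nonneg (wt_nonneg p hp0.le hp1 G) (md_nonneg G)
  rw [Real.dist_eq, sub_zero]
  show |∑ G₀ : SimpleGraph (Fin n), wt p G₀ * md G₀| < η
  rw [abs_of_nonneg h5]
  linarith

end Vale.Agent.P046.QS
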